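import Vale.Agent.P338.R2.H110.Cost

/-! Sweeps in both directions as lists of acts on single cells. -/

namespace Vale.Agent.P338.R2.H110

variable {α : Type*}

/-- Acts on single cells; `d = true`: to the right, `d = false`: to the left.
`mv d`: go to the next cell; `cp d`: copy the cell to the stack `A` and go to the next cell;
`tr`: move the top of `A` to `B`; `ad d`: combine the cell with the top of `B`, remove the top
of `B`, go to the next cell. -/
inductive SA
  | mv (d : Bool)
  | cp (d : Bool)
  | tr
  | ad (d : Bool)
  deriving DecidableEq, Repr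

/-- The state: the cells to the left (nearest first) and to the right of the head, two stacks. -/
@[ext] structure ZS (α : Type*) where
  l : List α
  r : List α
  A : List α
  B : List α

/-- One act. -/
inductive SA.Step (op : α → α → α) : SA → ZS α → ZS α → Prop
  | mvR (c : α) (l r A B : List α) : Step op (.mv true) ⟨l, c :: r, A, B⟩ ⟨c :: l, r, A, B⟩
  | mvL (c : α) (l r A B : List α) : Step op (.mv false) ⟨c :: l, r, A, B⟩ ⟨l, c :: r, A, B⟩
  | cpR (c : α) (l r A B : List α) :
      Step op (.cp true) ⟨l, c :: r, A, B⟩ ⟨c :: l, r, c :: A, B⟩
  | cpL (c : α) (l r A B : List α) :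
      Step op (.cp false) ⟨c :: l, r, A, B⟩ ⟨l, c :: r, c :: A, B⟩
  | tr (c : α) (l r A B : List α) : Step op .tr ⟨l, r, c :: A, B⟩ ⟨l, r, A, c :: B⟩
  | adR (c e : α) (l r A B : List α) :
      Step op (.ad true) ⟨l, c :: r, A, e :: B⟩ ⟨op c e :: l, r, A, B⟩
  | adL (c e : α) (l r A B : List α) :
      Step op (.ad false) ⟨c :: l, r, A, e :: B⟩ ⟨l, op c e :: r, A, B⟩

/-- A list of acts leads from one state to another. -/
inductive Steps (op : α → α → α) : List SA → ZS α → ZS α → Prop
  | nil (s : ZS α) : Steps op [] s s
  | cons {a : SA} {l : List SA} {s s' s'' : ZS α} (h : a.Step op s s') (h' : Steps op l s' s'') :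
      Steps op (a :: l) s s''

theorem Steps.append {op : α → α → α} {l l' : List SA} {s s' s'' : ZS α} (h : Steps op l s s')
    (h' : Steps op l' s' s'') : Steps op (l ++ l') s s'' := by
  induction h with
  | nil => exact h'
  | cons h1 _ ih => exact .cons h1 (ih h')

theorem Steps.one {op : α → α → α} {a : SA} {s s' : ZS α} (h : a.Step op s s') :
    Steps op [a] s s' := .cons h (.nil _)

/-- The state of the machine which belongs to the state of a sweep in direction `d`. -/
def SS.zs (d : Bool) (s : SS α) : ZS α :=
  match d with
  | true => ⟨s.dn, s.rs, s.A, s.B⟩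
  | false => ⟨s.rs, s.dn, s.A, s.B⟩

/-- The acts of an event, with multiplicities. -/
def Ev.code (d : Bool) : Ev → List (ℕ × SA)
  | .adv => [(1, .mv d)]
  | .push k => [(k, .cp d), (k, .mv !d)]
  | .flip k => [(k, .tr)]
  | .pop k => [(k, .ad d), (k, .mv !d)]

/-- The acts of a list with multiplicities. -/
def reps {β : Type*} (l : List (ℕ × β)) : List β := l.flatMap fun x => List.replicate x.1 x.2

@[simp] theorem reps_nil {β : Type*} : reps ([] : List (ℕ × β)) = [] := rfl

@[simp] theorem reps_cons {β : Type*} (x : ℕ × β) (l : List (ℕ × β)) :
    reps (x :: l) = List.replicate x.1 x.2 ++ reps l := rfl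

@[simp] theorem reps_append {β : Type*} (l l' : List (ℕ × β)) :
    reps (l ++ l') = reps l ++ reps l' := by simp [reps]

/-- The acts of a list of events. -/
def codes (d : Bool) (l : List Ev) : List (ℕ × SA) := l.flatMap (Ev.code d)

@[simp] theorem codes_nil (d : Bool) : codes d [] = [] := rfl
@[simp] theorem codes_cons (d : Bool) (e : Ev) (l : List Ev) :
    codes d (e :: l) = e.code d ++ codes d l := rfl
@[simp] theorem codes_append (d : Bool) (l l' : List Ev) :
    codes d (l ++ l') = codes d l ++ codes d l' := by simp [codes]

section
variable {op : α → α → α}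

theorem steps_mv (d : Bool) (x l r A B : List α) :
    Steps op (List.replicate x.length (.mv d)) (SS.zs d ⟨l, x ++ r, A, B⟩)
      (SS.zs d ⟨x.reverse ++ l, r, A, B⟩) := by
  induction x generalizing l with
  | nil => exact .nil _
  | cons c x ih =>
    rw [List.length_cons, List.replicate_succ]
    have := ih (c :: l)
    refine .cons ?_ (by simpa using this)
    cases d
    · exact .mvL _ _ _ _ _
    · exact .mvR _ _ _ _ _

theorem zs_not (d : Bool) (l r A B : List α) :
    SS.zs (!d) ⟨l, r, A, B⟩ = SS.zs d ⟨r, l, A, B⟩ := by cases d <;> rfl

theorem steps_back (d : Bool) (x l r A B : List α) :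
    Steps op (List.replicate x.length (.mv !d)) (SS.zs d ⟨x.reverse ++ l, r, A, B⟩)
      (SS.zs d ⟨l, x ++ r, A, B⟩) := by
  have := steps_mv (op := op) (!d) x.reverse r l A B
  simpa [zs_not] using this

theorem steps_cp (d : Bool) (x l r A B : List α) :
    Steps op (List.replicate x.length (.cp d)) (SS.zs d ⟨l, x ++ r, A, B⟩)
      (SS.zs d ⟨x.reverse ++ l, r, x.reverse ++ A, B⟩) := by
  induction x generalizing l A with
  | nil => exact .nil _
  | cons c x ih =>
    rw [List.length_cons, List.replicate_succ]
    have := ih (c :: l) (c :: A)
    refine .cons ?_ (by simpa using this)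
    cases d
    · exact .cpL _ _ _ _ _
    · exact .cpR _ _ _ _ _

theorem steps_tr (d : Bool) (x l r A B : List α) :
    Steps op (List.replicate x.length .tr) (SS.zs d ⟨l, r, x ++ A, B⟩)
      (SS.zs d ⟨l, r, A, x.reverse ++ B⟩) := by
  induction x generalizing B with
  | nil => exact .nil _
  | cons c x ih =>
    rw [List.length_cons, List.replicate_succ]
    have := ih (c :: B)
    refine .cons ?_ (by simpa using this)
    cases d
    · exact .tr _ _ _ _ _
    · exact .tr _ _ _ _ _

theorem steps_ad (d : Bool) (x y : List α) (h : x.length = y.length) (l r A B : List α) :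
    Steps op (List.replicate x.length (.ad d)) (SS.zs d ⟨l, x ++ r, A, y ++ B⟩)
      (SS.zs d ⟨(List.zipWith op x y).reverse ++ l, r, A, B⟩) := by
  induction x generalizing l y with
  | nil =>
    obtain rfl : y = [] := List.length_eq_zero_iff.1 (by simpa using h.symm)
    exact .nil _
  | cons c x ih =>
    cases y with
    | nil => simp at h
    | cons e y =>
      rw [List.length_cons, List.replicate_succ]
      have := ih y (by simpa using h) (op c e :: l)
      refine .cons ?_ (by simpa using this)
      cases d
      · exact .adL _ _ _ _ _ _
      · exact .adR _ _ _ _ _ _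

theorem exists_append_of_le {x : List α} {k : ℕ} (h : k ≤ x.length) :
    ∃ y z, x = y ++ z ∧ y.length = k ∧ x.take k = y ∧ x.drop k = z :=
  ⟨x.take k, x.drop k, (List.take_append_drop k x).symm, by simpa using h, rfl, rfl⟩

/-- The acts of an event have the effect of the event. -/
theorem steps_code (d : Bool) (e : Ev) (s : SS α) (h : e.ok s) :
    Steps op (reps (e.code d)) (s.zs d) ((e.run op s).zs d) := by
  obtain ⟨l, r, A, B⟩ := s
  cases e with
  | adv =>
    cases r with
    | nil => exact absurd rfl h
    | cons c r =>
      have := steps_mv (op := op) d [c] l r A B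
      simpa [Ev.code, Ev.run] using this
  | push k =>
    obtain ⟨y, z, rfl, rfl, h1, h2⟩ := exists_append_of_le (show k ≤ r.length from h)
    simp only [Ev.code, reps_cons, reps_nil, List.append_nil, Ev.run, h1]
    exact (steps_cp d y l z A B).append (steps_back d y l z _ B)
  | flip k =>
    obtain ⟨y, z, rfl, rfl, h1, h2⟩ := exists_append_of_le (show k ≤ A.length from h)
    simp only [Ev.code, reps_cons, reps_nil, List.append_nil, Ev.run, h1, h2]
    exact steps_tr d y l r z B
  | pop k =>
    obtain ⟨hr, hB⟩ : k ≤ r.length ∧ k ≤ B.length := h
    obtain ⟨y, z, rfl, hy, h1, h2⟩ := exists_append_of_le hr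
    obtain ⟨y', z', rfl, hy', h1', h2'⟩ := exists_append_of_le hB
    simp only [Ev.code, reps_cons, reps_nil, List.append_nil, Ev.run, h1, h2, h1', h2']
    have e1 := steps_ad (op := op) d y y' (hy.trans hy'.symm) l z A z'
    have e2 := steps_back (op := op) d (List.zipWith op y y') l z A z'
    rw [show (List.zipWith op y y').length = k by simp [hy, hy']] at e2
    rw [hy] at e1
    exact e1.append e2

/-- The acts of a list of events. -/
theorem Runs.steps (d : Bool) {l : List Ev} {s s' : SS α} (h : Runs op l s s') :
    Steps op (reps (codes d l)) (s.zs d) (s'.zs d) := by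
  induction h with
  | nil => exact .nil _
  | cons h1 _ ih =>
    rw [codes_cons, reps_append]
    exact (steps_code d _ _ h1).append ih

end

theorem length_reps_code (d : Bool) (e : Ev) : (reps (e.code d)).length ≤ 2 * e.cost := by
  cases e <;> simp [Ev.code, Ev.cost] <;> omega

/-- The number of acts is at most twice the cost. -/
theorem length_reps_codes (d : Bool) (l : List Ev) :
    (reps (codes d l)).length ≤ 2 * cost l := by
  induction l with
  | nil => simp
  | cons e l ih =>
    have := length_reps_code d e
    simp only [codes_cons, reps_append, List.length_append, cost_cons]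
    omega

/-! ### The instructions of a sweep -/

/-- Complement of all bits of a word. -/
def cpl (w : List Bool) : List Bool := w.map (!·)

@[simp] theorem cpl_cpl (w : List Bool) : cpl (cpl w) = w := by
  simp [cpl, Function.comp_def]

@[simp] theorem length_cpl (w : List Bool) : (cpl w).length = w.length := by simp [cpl]

@[simp] theorem cpl_nil : cpl [] = [] := rfl
@[simp] theorem cpl_cons (x : Bool) (w : List Bool) : cpl (x :: w) = (!x) :: cpl w := rfl

/-- The array in the other direction. -/
theorem tab_reverse (n : ℕ) (f : List Bool → α) :
    (tab n f).reverse = tab n (fun w => f (cpl w)) := by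
  induction n generalizing f with
  | zero => rfl
  | succ n ih => simp [tab, ih, List.reverse_append]

/-- The slide from `a` to `b` on all chunks by a sweep in direction `d`; it is used with
`fw a b` if `d = true` and with `fw (cpl a) (cpl b)` if `d = false`. -/
def slideD (op : α → α → α) (d : Bool) (a b ls : List Bool) (f : List Bool → α) :
    List Bool → α :=
  match d with
  | true => slideAll op a b ls f
  | false => fun w => slideAll op (cpl a) (cpl b) ls (fun w => f (cpl w)) (cpl w)

/-- The direction is right for the pair. -/
def fwD (d : Bool) (a b : List Bool) : Prop :=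
  match d with
  | true => fw a b
  | false => fw (cpl a) (cpl b)

/-- The instructions at the cell which is passed when the index word (in the direction of the
sweep) is `w`. -/
def insW (d : Bool) (a b ls w : List Bool) : List (ℕ × SA) :=
  match d with
  | true => codes true (evAt a b ls (.pre a b) w ++ [.adv])
  | false => codes false (evAt (cpl a) (cpl b) ls (.pre (cpl a) (cpl b)) w ++ [.adv])

theorem reps_flatMap {β γ : Type*} (l : List γ) (g : γ → List (ℕ × β)) :
    reps (l.flatMap g) = l.flatMap fun x => reps (g x) := by
  simp [reps, List.flatMap_assoc]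

theorem codes_flatMap {γ : Type*} (d : Bool) (l : List γ) (g : γ → List Ev) :
    codes d (l.flatMap g) = l.flatMap fun x => codes d (g x) := by
  simp [codes, List.flatMap_assoc]

/-- The array and the machine state before and after a sweep in direction `d`: at the beginning
the array is in front of the head, at the end it is behind the head. -/
def zin (d : Bool) (n : ℕ) (f : List Bool → α) (l r A B : List α) : ZS α :=
  match d with
  | true => ⟨l, tab n f ++ r, A, B⟩
  | false => ⟨(tab n f).reverse ++ l, r, A, B⟩

/-- **One sweep in direction `d`.** -/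
theorem sweepD {op : α → α → α} {d : Bool} {a b : List Bool} (h0 : fwD d a b)
    {ls : List Bool} (hok : ok a.length ls a.length) (f : List Bool → α) (l r A B : List α) :
    Steps op ((words ls.length).flatMap fun w => reps (insW d a b ls w))
      (zin d ls.length f l r A B) (zin (!d) ls.length (slideD op d a b ls f) l r A B) := by
  cases d with
  | true =>
    have := (sweep (op := op) (show fw a b from h0) hok f l r A B).steps true
    rw [go_eq_flatMap, codes_flatMap, reps_flatMap] at this
    exact this
  | false =>
    have := (sweep (op := op) (show fw (cpl a) (cpl b) from h0)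
      (by simpa using hok) (fun w => f (cpl w)) r l A B).steps false
    rw [go_eq_flatMap, codes_flatMap, reps_flatMap] at this
    simp only [SS.zs] at this
    simp only [zin, slideD, tab_reverse, Bool.not_false]
    refine (by simpa [tab_reverse, insW] using this)

/-- The number of acts of a sweep. -/
theorem length_sweepD {d : Bool} {a b : List Bool} (h0 : fwD d a b)
    {ls : List Bool} (hok : ok a.length ls a.length) :
    a.length * 2 ^ a.length * ((words ls.length).flatMap fun w => reps (insW d a b ls w)).length ≤
      2 * (2 ^ ls.length * (a.length * 2 ^ a.length + 3 * act ls)) := by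
  cases d with
  | true =>
    have h1 := cost_sweep (show fw a b from h0) hok
    have h2 := length_reps_codes true (go a b ls (.pre a b))
    rw [go_eq_flatMap, codes_flatMap, reps_flatMap] at h2
    rw [go_eq_flatMap] at h1
    calc _ ≤ a.length * 2 ^ a.length * (2 * cost ((words ls.length).flatMap fun w =>
          evAt a b ls (.pre a b) w ++ [.adv])) := Nat.mul_le_mul_left _ h2
      _ = 2 * (a.length * 2 ^ a.length * cost ((words ls.length).flatMap fun w =>
          evAt a b ls (.pre a b) w ++ [.adv])) := by ring
      _ ≤ _ := Nat.mul_le_mul_left _ h1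
  | false =>
    have h1 := cost_sweep (show fw (cpl a) (cpl b) from h0) (by simpa using hok)
    have h2 := length_reps_codes false (go (cpl a) (cpl b) ls (.pre (cpl a) (cpl b)))
    rw [go_eq_flatMap, codes_flatMap, reps_flatMap] at h2
    rw [go_eq_flatMap, length_cpl] at h1
    calc _ ≤ a.length * 2 ^ a.length * (2 * cost ((words ls.length).flatMap fun w =>
          evAt (cpl a) (cpl b) ls (.pre (cpl a) (cpl b)) w ++ [.adv])) :=
            Nat.mul_le_mul_left _ h2
      _ = 2 * (a.length * 2 ^ a.length * cost ((words ls.length).flatMap fun w =>
          evAt (cpl a) (cpl b) ls (.pre (cpl a) (cpl b)) w ++ [.adv])) := by ring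
      _ ≤ _ := Nat.mul_le_mul_left _ h1

end Vale.Agent.P338.R2.H110
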