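import Vale.Agent.P338.R2.H110.Run

/-! The events of a sweep as a function of the cell index. -/

namespace Vale.Agent.P338.R2.H110

/-- All words of `n` bits in lexicographic order. -/
def words : ℕ → List (List Bool)
  | 0 => [[]]
  | n + 1 => (words n).map (false :: ·) ++ (words n).map (true :: ·)

theorem length_of_mem_words : ∀ {n : ℕ} {w : List Bool}, w ∈ words n → w.length = n
  | 0, w, h => by simp [words] at h; simp [h]
  | n + 1, w, h => by
    simp only [words, List.mem_append, List.mem_map] at h
    rcases h with ⟨w', h', rfl⟩ | ⟨w', h', rfl⟩ <;> simp [length_of_mem_words h']

@[simp] theorem length_words (n : ℕ) : (words n).length = 2 ^ n := by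
  induction n with
  | zero => rfl
  | succ n ih => simp [words, ih]; ring

theorem tab_eq_map {α : Type*} (n : ℕ) (f : List Bool → α) : tab n f = (words n).map f := by
  induction n generalizing f with
  | zero => rfl
  | succ n ih => simp [tab, words, ih, Function.comp_def]

/-- Something emitted at the first word of a block. -/
theorem flatMap_first {β : Type*} (n : ℕ) (X : List β) (g : List Bool → List β) :
    (words n).flatMap (fun w => (if w.all (!·) then X else []) ++ g w) =
      X ++ (words n).flatMap g := by
  induction n generalizing g with
  | zero => simp [words]
  | succ n ih =>
    simp only [words, List.flatMap_append, List.flatMap_map]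
    have h1 := ih (fun w => g (false :: w))
    simp only [List.all_cons, Bool.not_false, Bool.true_and, Bool.not_true, Bool.false_and,
      Bool.false_eq_true, if_false, List.nil_append]
    rw [h1, List.append_assoc]

variable (a₀ b₀ : List Bool)

/-- The events before the cell with index `w`. -/
def evAt : List Bool → St → List Bool → List Ev
  | false :: ls, st, _ :: w => evAt ls st w
  | true :: ls, st, v :: w =>
      (if w.all (!·) then (if v then fl ls.length st else []) ++
        mark (2 ^ ls.length) (nx st v) else []) ++ evAt ls (fin a₀ b₀ (nx st v)) w
  | _, _, _ => []

theorem go_eq_flatMap (ls : List Bool) (st : St) :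
    go a₀ b₀ ls st = (words ls.length).flatMap fun w => evAt a₀ b₀ ls st w ++ [.adv] := by
  induction ls generalizing st with
  | nil => simp [go, words, evAt]
  | cons t ls ih =>
    cases t with
    | false =>
      simp only [go, List.length_cons, words, List.flatMap_append, List.flatMap_map, evAt]
      rw [ih]
    | true =>
      simp only [go, List.length_cons, words, List.flatMap_append, List.flatMap_map, evAt]
      rw [ih, ih]
      simp only [List.append_assoc, Bool.false_eq_true, if_false, if_true, List.nil_append]
      rw [flatMap_first, flatMap_first]
      simp [List.append_assoc]

/-- The events are short. -/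
theorem length_evAt_le (ls : List Bool) (st : St) (w : List Bool) :
    (evAt a₀ b₀ ls st w).length ≤ 2 * ls.length := by
  induction ls generalizing st w with
  | nil => simp [evAt]
  | cons t ls ih =>
    cases w with
    | nil => cases t <;> simp [evAt]
    | cons v w =>
      cases t with
      | false => simp only [evAt, List.length_cons]; have := ih st w; omega
      | true =>
        have h1 := ih (fin a₀ b₀ (nx st v)) w
        have h2 : (fl ls.length st).length ≤ 1 := by
          unfold fl; split
          · split_ifs <;> simp
          · simp
        have h3 : (mark (2 ^ ls.length) (nx st v)).length ≤ 1 := by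
          unfold mark; split <;> simp
        simp only [evAt, List.length_cons, List.length_append]
        split_ifs <;> simp <;> omega

end Vale.Agent.P338.R2.H110
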