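import Vale.Agent.P338.R2.H110.At

/-! The cost of one sweep. -/

namespace Vale.Agent.P338.R2.H110

/-- Remaining active levels of the chunk. -/
def rem : St → ℕ
  | .pre a _ => a.length
  | .src a => a.length
  | .tgt b => b.length
  | .dead r => r

/-- Weight of a state. -/
def wt (m : ℕ) : St → ℕ
  | .pre a _ => 3 * 2 ^ (m - a.length)
  | .src a => 2 ^ (m - a.length)
  | .tgt b => 2 ^ (m - b.length)
  | .dead _ => 0

/-- Number of active levels. -/
def act (ls : List Bool) : ℕ := ls.count true

@[simp] theorem act_nil : act [] = 0 := rfl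
@[simp] theorem act_false (ls : List Bool) : act (false :: ls) = act ls := by simp [act]
@[simp] theorem act_true (ls : List Bool) : act (true :: ls) = act ls + 1 := by simp [act]

theorem ok_act {m : ℕ} (hm : 0 < m) : ∀ (ls : List Bool) (r : ℕ), ok m ls r → r ≤ m →
    (act ls = 0 ∧ r = m) ∨ (r ≤ act ls)
  | [], r, h, _ => by simp only [ok] at h; simp [h]
  | false :: ls, r, h, hr => by simpa using ok_act hm ls r h hr
  | true :: ls, r, h, hr => by
    right
    simp only [ok] at h
    rw [act_true]
    split_ifs at h with h1
    · omega
    · have := ok_act hm ls (r - 1) h (by omega)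
      omega

/-- Good states. -/
def gd (m : ℕ) : St → Prop
  | .pre a b => fw a b ∧ a.length ≤ m
  | .src a => a ≠ [] ∧ a.length < m
  | .tgt b => b ≠ [] ∧ b.length < m
  | .dead r => 1 ≤ r ∧ r < m

theorem pow_sub_le_aux {m k n : ℕ} (hk : k ≤ n) (hm : k ≤ m) :
    2 ^ m * 2 ^ (n - k) = 2 ^ (m - k) * 2 ^ n := by
  rw [← pow_add, ← pow_add]; congr 1; omega

section
variable {a₀ b₀ : List Bool}

/-- The claim of the induction. -/
def CostOK (a₀ b₀ ls : List Bool) : Prop :=
  ∀ st, gd a₀.length st → ok a₀.length ls (rem st) →
    a₀.length * 2 ^ a₀.length * cost (go a₀ b₀ ls st) ≤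
      2 ^ ls.length * (a₀.length * 2 ^ a₀.length +
        (if act ls = 0 then 0 else a₀.length * wt a₀.length st + 3 * (act ls - rem st)))

theorem cost_start {ls : List Bool} (h : CostOK a₀ b₀ ls) (h0 : fw a₀ b₀)
    (hok : ok a₀.length ls a₀.length) :
    a₀.length * 2 ^ a₀.length * cost (go a₀ b₀ ls (.pre a₀ b₀)) ≤
      2 ^ ls.length * (a₀.length * 2 ^ a₀.length + 3 * act ls) := by
  have hm : 0 < a₀.length := List.length_pos_of_ne_nil h0.ne_nil
  refine (h (.pre a₀ b₀) ⟨h0, le_rfl⟩ hok).trans (Nat.mul_le_mul_left _ (Nat.add_le_add_left ?_ _))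
  rcases ok_act hm ls _ hok le_rfl with h1 | h1
  · simp [h1.1]
  · split_ifs
    · omega
    · simp only [wt, rem, Nat.sub_self, pow_zero]; omega

/-- cost of entering a child -/
theorem cost_child {ls : List Bool} (h : CostOK a₀ b₀ ls) (h0 : fw a₀ b₀) (st : St)
    (hst : match st with
      | .pre a b => fw a b
      | _ => True) (hlt : rem st < a₀.length)
    (hok : if rem st = 0 then ok a₀.length ls a₀.length else ok a₀.length ls (rem st)) :
    a₀.length * 2 ^ a₀.length *
        cost (mark (2 ^ ls.length) st ++ go a₀ b₀ ls (fin a₀ b₀ st)) ≤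
      2 ^ ls.length * (a₀.length * 2 ^ a₀.length + (a₀.length * wt a₀.length st +
        3 * (act ls - rem st))) := by
  have hm : 0 < a₀.length := List.length_pos_of_ne_nil h0.ne_nil
  by_cases hr : rem st = 0
  · have hs := cost_start h h0 (by simpa [hr] using hok)
    match st, hr, hst with
    | .pre a b, hr, hst =>
      exact absurd (List.length_eq_zero_iff.1 hr) hst.ne_nil
    | .dead r, hr, _ =>
      simp only [rem] at hr
      subst hr
      simp only [mark, fin, List.nil_append, wt, rem, Nat.sub_zero, mul_zero, zero_add]
      exact hs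
    | .src a, hr, _ =>
      obtain rfl := List.length_eq_zero_iff.1 hr
      simp only [mark, fin, cost_append, cost_cons, cost_nil, Ev.cost, wt, rem, List.length_nil,
        Nat.sub_zero, Nat.add_zero]
      nlinarith [hs]
    | .tgt a, hr, _ =>
      obtain rfl := List.length_eq_zero_iff.1 hr
      simp only [mark, fin, cost_append, cost_cons, cost_nil, Ev.cost, wt, rem, List.length_nil,
        Nat.sub_zero, Nat.add_zero]
      nlinarith [hs]
  · have hok' : ok a₀.length ls (rem st) := by simpa [hr] using hok
    have hgd : gd a₀.length st := by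
      match st, hr, hst, hlt with
      | .pre a b, hr, hst, hlt => exact ⟨hst, le_of_lt hlt⟩
      | .dead r, hr, _, hlt => exact ⟨Nat.pos_of_ne_zero hr, hlt⟩
      | .src a, hr, _, hlt => exact ⟨fun h => hr (by simp [rem, h]), hlt⟩
      | .tgt a, hr, _, hlt => exact ⟨fun h => hr (by simp [rem, h]), hlt⟩
    have h1 := h st hgd hok'
    have e1 : mark (2 ^ ls.length) st ++ go a₀ b₀ ls (fin a₀ b₀ st) = go a₀ b₀ ls st := by
      match st, hr with
      | .pre a b, _ => simp [mark, fin]
      | .dead 0, hr => exact absurd rfl hr
      | .dead (r + 1), _ => simp [mark, fin]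
      | .src [], hr => exact absurd rfl hr
      | .src (x :: a), _ => simp [mark, fin]
      | .tgt [], hr => exact absurd rfl hr
      | .tgt (x :: a), _ => simp [mark, fin]
    rw [e1]
    refine h1.trans (Nat.mul_le_mul_left _ (Nat.add_le_add_left ?_ _))
    split_ifs <;> omega

theorem pow_sub_succ {m k : ℕ} (h : k + 1 ≤ m) : 2 ^ (m - k) = 2 * 2 ^ (m - (k + 1)) := by
  rw [← pow_succ']; congr 1; omega

theorem costOK_cons_true {ls : List Bool} (h : CostOK a₀ b₀ ls) (h0 : fw a₀ b₀) :
    CostOK a₀ b₀ (true :: ls) := by
  have hm : 0 < a₀.length := List.length_pos_of_ne_nil h0.ne_nil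
  intro st hgd hok
  have hr1 : 1 ≤ rem st := by
    match st, hgd with
    | .pre a b, hgd => exact List.length_pos_of_ne_nil hgd.1.ne_nil
    | .dead r, hgd => exact hgd.1
    | .src a, hgd => exact List.length_pos_of_ne_nil hgd.1
    | .tgt a, hgd => exact List.length_pos_of_ne_nil hgd.1
  have hrm : rem st ≤ a₀.length := by
    match st, hgd with
    | .pre a b, hgd => exact hgd.2
    | .dead r, hgd => exact le_of_lt hgd.2
    | .src a, hgd => exact le_of_lt hgd.2
    | .tgt a, hgd => exact le_of_lt hgd.2
  obtain ⟨r, hr⟩ : ∃ r, rem st = r + 1 := ⟨rem st - 1, by omega⟩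
  have hok' : if r = 0 then ok a₀.length ls a₀.length else ok a₀.length ls r := by
    rw [hr] at hok; exact ok_succ hok
  -- the children have remaining length `r`
  have hch : ∀ v, rem (nx st v) = r := by
    intro v
    match st, hgd, hr with
    | .pre (x :: a) (y :: b), hgd, hr =>
      have hl := hgd.1.length_eq
      simp only [rem, List.length_cons] at hr hl
      simp only [nx]
      split_ifs <;> simp only [rem] <;> omega
    | .pre (x :: a) [], hgd, _ => exact hgd.1.elim
    | .pre [] b, hgd, hr => simp [rem] at hr
    | .dead r', _, hr => simp only [rem] at hr; simp only [nx, rem]; omega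
    | .src (x :: a), _, hr =>
      simp only [rem, List.length_cons] at hr
      simp only [nx]
      split_ifs <;> simp only [rem] <;> omega
    | .src [], _, hr => simp [rem] at hr
    | .tgt (x :: a), _, hr =>
      simp only [rem, List.length_cons] at hr
      simp only [nx]
      split_ifs <;> simp only [rem] <;> omega
    | .tgt [], _, hr => simp [rem] at hr
  have hpre : ∀ v, (match nx st v with
      | .pre a b => fw a b
      | _ => True) := by
    intro v
    match st, hgd with
    | .pre (x :: a) (y :: b), hgd =>
      by_cases hxy : x = y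
      · by_cases hv : v = x
        · have : fw a b := by simpa [fw, hxy] using hgd.1
          simpa [nx, hxy, hv] using this
        · simp [nx, hxy, hxy ▸ hv]
      · by_cases hv : v = x <;> simp [nx, hxy, hv]
    | .pre (x :: a) [], hgd => exact hgd.1.elim
    | .pre [] b, hgd => exact absurd rfl hgd.1.ne_nil
    | .dead r', _ => simp [nx]
    | .src (x :: a), _ => by_cases hv : v = x <;> simp [nx, hv]
    | .src [], hgd => exact absurd rfl hgd.1
    | .tgt (x :: a), _ => by_cases hv : v = x <;> simp [nx, hv]
    | .tgt [], hgd => exact absurd rfl hgd.1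
  have c := fun v => cost_child h h0 (nx st v) (hpre v) (by rw [hch]; omega)
    (by rw [hch]; exact hok')
  -- the weights
  have hw : 2 ^ ls.length * (a₀.length * wt a₀.length (nx st false)) +
      2 ^ ls.length * (a₀.length * wt a₀.length (nx st true)) +
      a₀.length * 2 ^ a₀.length * cost (fl ls.length st) ≤
      2 ^ ls.length * (2 * (a₀.length * wt a₀.length st)) := by
    match st, hgd, hr, hrm with
    | .pre (x :: a) (y :: b), hgd, hr, hrm =>
      simp only [rem, List.length_cons] at hr hrm
      have hp := pow_sub_succ (m := a₀.length) (k := a.length) (by omega)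
      by_cases hxy : x = y
      · subst hxy
        have e : wt a₀.length (nx (.pre (x :: a) (x :: b)) false) +
            wt a₀.length (nx (.pre (x :: a) (x :: b)) true) = 3 * 2 ^ (a₀.length - a.length) := by
          cases x <;> simp [nx, wt]
        have e2 : cost (fl ls.length (.pre (x :: a) (x :: b))) = 0 := by simp [fl]
        rw [e2, mul_zero, Nat.add_zero, ← mul_add, ← mul_add, e]
        simp only [wt, List.length_cons]
        rw [hp]
        exact le_of_eq (by ring)
      · have hf : x = false ∧ y = true ∧ a.length = b.length := by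
          simpa [fw, hxy] using hgd.1
        obtain ⟨rfl, rfl, hab⟩ := hf
        have hle : a.length ≤ ls.length := by
          by_cases ha : a = []
          · simp [ha]
          · have ha0 : a.length ≠ 0 := by simpa [List.length_eq_zero_iff] using ha
            have hra : r = a.length := by omega
            exact (length_selL (α := ℕ) (m := a₀.length) ls a (fun _ => 0) (by omega)
              (by simpa [hra, ha] using hok') ha).2
        have hka : a.length ≤ a₀.length := by omega
        have hpp := pow_sub_le_aux (m := a₀.length) (k := a.length) (n := ls.length) hle hka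
        simp only [nx, fl, wt, List.length_cons, cost_cons, cost_nil, Ev.cost, if_true,
          Bool.false_eq_true, Bool.true_eq_false, if_false, Nat.add_zero, ← hab]
        rw [mul_assoc a₀.length, hpp, hp]
        exact le_of_eq (by ring)
    | .pre (x :: a) [], hgd, _, _ => exact hgd.1.elim
    | .pre [] b, hgd, _, _ => exact absurd rfl hgd.1.ne_nil
    | .dead r', _, _, _ => simp [nx, wt, fl]
    | .src (x :: a), _, hr, hrm =>
      simp only [rem, List.length_cons] at hr hrm
      have hp := pow_sub_succ (m := a₀.length) (k := a.length) (by omega)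
      cases x <;> simp only [nx, fl, wt, List.length_cons, cost_nil, if_true,
          Bool.false_eq_true, Bool.true_eq_false, if_false, Nat.add_zero, mul_zero,
          Nat.zero_add, hp] <;>
        exact le_of_eq (by ring)
    | .src [], hgd, _, _ => exact absurd rfl hgd.1
    | .tgt (x :: a), _, hr, hrm =>
      simp only [rem, List.length_cons] at hr hrm
      have hp := pow_sub_succ (m := a₀.length) (k := a.length) (by omega)
      cases x <;> simp only [nx, fl, wt, List.length_cons, cost_nil, if_true,
          Bool.false_eq_true, Bool.true_eq_false, if_false, Nat.add_zero, mul_zero,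
          Nat.zero_add, hp] <;>
        exact le_of_eq (by ring)
    | .tgt [], hgd, _, _ => exact absurd rfl hgd.1
  have c0 := c false
  have c1 := c true
  rw [hch] at c0 c1
  simp only [go, cost_append] at c0 c1 ⊢
  rw [act_true, if_neg (by omega), List.length_cons, hr,
    show act ls + 1 - (r + 1) = act ls - r by omega, pow_succ]
  generalize act ls - r = t at c0 c1 ⊢
  generalize 2 ^ ls.length = N at *
  generalize a₀.length * 2 ^ a₀.length = M at *
  nlinarith [c0, c1, hw]

theorem costOK (h0 : fw a₀ b₀) : ∀ ls : List Bool, CostOK a₀ b₀ ls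
  | [] => by
    intro st _ _
    simp [go, Ev.cost]
  | false :: ls => by
    intro st hgd hok
    have := costOK h0 ls st hgd hok
    simp only [go, cost_append, act_false, List.length_cons]
    rw [pow_succ]
    split_ifs at this ⊢ <;> nlinarith [this]
  | true :: ls => costOK_cons_true (costOK h0 ls) h0

/-- **Cost of one sweep**: at most `N (1 + 3 t / (m 2^m))` cells are touched, `N = 2^(number of
levels)`, `t` = number of active levels, `m` = size of the chunks. -/
theorem cost_sweep (h0 : fw a₀ b₀) {ls : List Bool} (hok : ok a₀.length ls a₀.length) :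
    a₀.length * 2 ^ a₀.length * cost (go a₀ b₀ ls (.pre a₀ b₀)) ≤
      2 ^ ls.length * (a₀.length * 2 ^ a₀.length + 3 * act ls) :=
  cost_start (costOK h0 ls) h0 hok

end

end Vale.Agent.P338.R2.H110
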