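import Mathlib.Data.List.Basic
import Mathlib.Data.List.TakeDrop
import Mathlib.Tactic

/-! Sweep machine: events on an array of cells with two stacks. No Turing machines here. -/

namespace Vale.Agent.P338.R2.H110

variable {α : Type*}

/-- Events of a sweep: go to the next cell; copy the next `k` cells to the stack `A`;
move the top `k` cells from `A` to `B` (one by one, so their order is reversed);
combine the top `k` cells of `B` with the next `k` cells of the array and remove them from `B`. -/
inductive Ev
  | adv
  | push (k : ℕ)
  | flip (k : ℕ)
  | pop (k : ℕ)
  deriving DecidableEq, Repr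

/-- State of a sweep: `dn` = cells already passed, last one first; `rs` = cells to come;
`A`, `B` = stacks, top first. -/
@[ext] structure SS (α : Type*) where
  dn : List α
  rs : List α
  A : List α
  B : List α

/-- Effect of one event; `op x y` is the new value of a target cell `x` with source `y`. -/
def Ev.run (op : α → α → α) : Ev → SS α → SS α
  | .adv, ⟨d, r, A, B⟩ => ⟨(r.take 1).reverse ++ d, r.drop 1, A, B⟩
  | .push k, ⟨d, r, A, B⟩ => ⟨d, r, (r.take k).reverse ++ A, B⟩
  | .flip k, ⟨d, r, A, B⟩ => ⟨d, r, A.drop k, (A.take k).reverse ++ B⟩
  | .pop k, ⟨d, r, A, B⟩ =>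
      ⟨d, List.zipWith op (r.take k) (B.take k) ++ r.drop k, A, B.drop k⟩

/-- Number of cells touched by an event. -/
def Ev.cost : Ev → ℕ
  | .adv => 1
  | .push k => k
  | .flip k => k
  | .pop k => k

/-- Run a list of events. -/
def runs (op : α → α → α) (l : List Ev) (s : SS α) : SS α := l.foldl (fun s e => e.run op s) s

@[simp] theorem runs_nil (op : α → α → α) (s : SS α) : runs op [] s = s := rfl

@[simp] theorem runs_cons (op : α → α → α) (e : Ev) (l : List Ev) (s : SS α) :
    runs op (e :: l) s = runs op l (e.run op s) := rfl

@[simp] theorem runs_append (op : α → α → α) (l l' : List Ev) (s : SS α) :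
    runs op (l ++ l') s = runs op l' (runs op l s) := by
  simp [runs, List.foldl_append]

/-- The event touches only existing cells. -/
def Ev.ok : Ev → SS α → Prop
  | .adv, s => s.rs ≠ []
  | .push k, s => k ≤ s.rs.length
  | .flip k, s => k ≤ s.A.length
  | .pop k, s => k ≤ s.rs.length ∧ k ≤ s.B.length

/-- A list of events, all of which touch only existing cells, leads from one state to another. -/
inductive Runs (op : α → α → α) : List Ev → SS α → SS α → Prop
  | nil (s : SS α) : Runs op [] s s
  | cons {e : Ev} {l : List Ev} {s s' : SS α} (h : e.ok s) (h' : Runs op l (e.run op s) s') :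
      Runs op (e :: l) s s'

theorem Runs.append {op : α → α → α} {l l' : List Ev} {s s' s'' : SS α} (h : Runs op l s s')
    (h' : Runs op l' s' s'') : Runs op (l ++ l') s s'' := by
  induction h with
  | nil => exact h'
  | cons h1 _ ih => exact .cons h1 (ih h')

theorem Runs.one {op : α → α → α} {e : Ev} {s s' : SS α} (h : e.ok s) (h' : e.run op s = s') :
    Runs op [e] s s' := .cons h (h' ▸ .nil _)

/-- Every event of the list touches only existing cells. -/
def legs (op : α → α → α) : List Ev → SS α → Prop
  | [], _ => True
  | e :: l, s => e.ok s ∧ legs op l (e.run op s)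

theorem Runs.legs {op : α → α → α} {l : List Ev} {s s' : SS α} (h : Runs op l s s') :
    legs op l s := by
  induction h with
  | nil => trivial
  | cons h _ ih => exact ⟨h, ih⟩

theorem Runs.of_legs {op : α → α → α} {l : List Ev} {s : SS α} (h : H110.legs op l s) :
    Runs op l s (runs op l s) := by
  induction l generalizing s with
  | nil => exact .nil _
  | cons e l ih => exact .cons h.1 (ih h.2)

theorem Runs.eq {op : α → α → α} {l : List Ev} {s s' : SS α} (h : Runs op l s s') :
    runs op l s = s' := by
  induction h with
  | nil => rfl
  | cons _ _ ih => exact ih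

/-- Total cost. -/
def cost (l : List Ev) : ℕ := (l.map Ev.cost).sum

@[simp] theorem cost_nil : cost [] = 0 := rfl
@[simp] theorem cost_cons (e : Ev) (l : List Ev) : cost (e :: l) = e.cost + cost l := by
  simp [cost]
@[simp] theorem cost_append (l l' : List Ev) : cost (l ++ l') = cost l + cost l' := by
  simp [cost]

/-- The array of the values of `f` at all words of `n` bits, in lexicographic order
(first bit = most significant). -/
def tab : (n : ℕ) → (List Bool → α) → List α
  | 0, f => [f []]
  | n + 1, f => tab n (fun w => f (false :: w)) ++ tab n (fun w => f (true :: w))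

@[simp] theorem length_tab (n : ℕ) (f : List Bool → α) : (tab n f).length = 2 ^ n := by
  induction n generalizing f with
  | zero => rfl
  | succ n ih => simp only [tab, List.length_append, ih]; ring

theorem tab_congr {n : ℕ} {f g : List Bool → α} (h : ∀ w, w.length = n → f w = g w) :
    tab n f = tab n g := by
  induction n generalizing f g with
  | zero => simp [tab, h [] rfl]
  | succ n ih =>
    simp only [tab]
    rw [ih (f := fun w => f (false :: w)) (g := fun w => g (false :: w))
        (fun w hw => h _ (by simp [hw])),
      ih (f := fun w => f (true :: w)) (g := fun w => g (true :: w))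
        (fun w hw => h _ (by simp [hw]))]

theorem zipWith_tab (op : α → α → α) (n : ℕ) (f g : List Bool → α) :
    List.zipWith op (tab n f) (tab n g) = tab n (fun w => op (f w) (g w)) := by
  induction n generalizing f g with
  | zero => rfl
  | succ n ih =>
    simp only [tab]
    rw [List.zipWith_append (by simp), ih, ih]

theorem take_tab_append (n : ℕ) (f : List Bool → α) (r : List α) :
    (tab n f ++ r).take (2 ^ n) = tab n f := by
  rw [List.take_append_of_le_length (by simp), List.take_of_length_le (by simp)]

theorem drop_tab_append (n : ℕ) (f : List Bool → α) (r : List α) :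
    (tab n f ++ r).drop (2 ^ n) = r := by
  rw [List.drop_append_of_le_length (by simp), List.drop_of_length_le (by simp)]; rfl

end Vale.Agent.P338.R2.H110
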