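import Vale.Agent.P338.R2.H110.Acts

/-! The instructions of a sweep as a plain function of numbers and lists. -/

namespace Vale.Agent.P338.R2.H110

/-- The word of `K` bits of a number, most significant bit first. -/
def wordOf (K t : ℕ) : List Bool := (List.range K).map fun i => t.testBit (K - 1 - i)

@[simp] theorem length_wordOf (K t : ℕ) : (wordOf K t).length = K := by simp [wordOf]

theorem wordOf_zero (t : ℕ) : wordOf 0 t = [] := rfl

theorem wordOf_succ (K t : ℕ) : wordOf (K + 1) t = t.testBit K :: wordOf K t := by
  unfold wordOf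
  rw [List.range_succ_eq_map, List.map_cons, List.map_map]
  refine congrArg₂ _ (by simp) (List.map_congr_left fun i hi => ?_)
  simp only [Function.comp]
  congr 1
  omega

theorem wordOf_add (K t : ℕ) : wordOf K (2 ^ K + t) = wordOf K t := by
  unfold wordOf
  refine List.map_congr_left fun i hi => ?_
  rw [List.mem_range] at hi
  rw [Nat.testBit_two_pow_add_gt (by omega)]

theorem words_eq (K : ℕ) : words K = (List.range (2 ^ K)).map (wordOf K) := by
  induction K with
  | zero => rfl
  | succ K ih =>
    rw [words, ih, pow_succ, mul_two, List.range_add, List.map_append, List.map_map,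
      List.map_map, List.map_map]
    refine congrArg₂ _ (List.map_congr_left fun t ht => ?_) (List.map_congr_left fun t ht => ?_)
    · rw [List.mem_range] at ht
      simp only [Function.comp]
      rw [wordOf_succ, Nat.testBit_lt_two_pow ht]
    · rw [List.mem_range] at ht
      simp only [Function.comp]
      rw [wordOf_succ, wordOf_add, Nat.testBit_two_pow_add_eq, Nat.testBit_lt_two_pow ht]
      rfl

/-- New code of the state (`0` pre, `1` src, `2` tgt, `3` dead); `x`, `y` = next letters of the
patterns, `v` = bit of the index. -/
def nc (c : ℕ) (x y v : Bool) : ℕ :=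
  if c = 0 then (if x = y then (if v = x then 0 else 3) else (if v = x then 1 else 2))
  else if c = 1 then (if v = x then 1 else 3)
  else if c = 2 then (if v = y then 2 else 3)
  else 3

/-- One level: code and remaining patterns. -/
def sN (a₀ b₀ : List Bool) (s : ℕ × List Bool × List Bool) (p : Bool × Bool) :
    ℕ × List Bool × List Bool :=
  if p.1 = true then
    if s.2.1.tail.isEmpty = true then (0, a₀, b₀)
    else (nc s.1 (s.2.1.headD false) (s.2.2.headD false) p.2, s.2.1.tail, s.2.2.tail)
  else s

/-- The codes of the events at one level: kind (`1` push, `2` flip, `3` pop) and number.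
`s` = state before, `p` = level and bit, `r` = the levels and bits below. -/
def eN (s : ℕ × List Bool × List Bool) (p : Bool × Bool) (r : List (Bool × Bool)) :
    List (ℕ × ℕ) :=
  if (p.1 && r.all fun q => !q.2) = true then
    (if (p.2 && (decide (s.1 = 0) && !(decide (s.2.1.headD false = s.2.2.headD false)))) = true
      then [(2, 2 ^ (r.length - s.2.1.tail.length))] else []) ++
    (if s.2.1.tail.isEmpty = true then
      (if nc s.1 (s.2.1.headD false) (s.2.2.headD false) p.2 = 1 then [(1, 2 ^ r.length)]
        else if nc s.1 (s.2.1.headD false) (s.2.2.headD false) p.2 = 2 then [(3, 2 ^ r.length)]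
        else [])
      else [])
  else []

/-- The codes of the events at a cell. -/
def evN (a₀ b₀ : List Bool) (l : List (Bool × Bool)) (s : ℕ × List Bool × List Bool) :
    List (ℕ × ℕ) :=
  (List.range l.length).flatMap fun i =>
    eN ((l.take i).foldl (sN a₀ b₀) s) (l.getD i (false, false)) (l.drop (i + 1))

/-- The code of an event. -/
def Ev.num : Ev → ℕ × ℕ
  | .adv => (0, 0)
  | .push k => (1, k)
  | .flip k => (2, k)
  | .pop k => (3, k)

theorem evN_cons (a₀ b₀ : List Bool) (p : Bool × Bool) (l : List (Bool × Bool))
    (s : ℕ × List Bool × List Bool) :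
    evN a₀ b₀ (p :: l) s = eN s p l ++ evN a₀ b₀ l (sN a₀ b₀ s p) := by
  unfold evN
  rw [List.length_cons, List.range_succ_eq_map, List.flatMap_cons, List.flatMap_map]
  rfl

/-- The code represents the state. -/
inductive RepSt : ℕ × List Bool × List Bool → St → Prop
  | pre (a b : List Bool) : RepSt (0, a, b) (.pre a b)
  | src (a b : List Bool) : RepSt (1, a, b) (.src a)
  | tgt (a b : List Bool) : RepSt (2, a, b) (.tgt b)
  | dead (a b : List Bool) : RepSt (3, a, b) (.dead a.length)

theorem mark_nil {c : ℕ} {n : ℕ} {st : St} (h : RepSt (c, [], []) st) :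
    (if c = 1 then [(1, n)] else if c = 2 then [(3, n)] else []) =
      (mark n st).map Ev.num := by
  cases h <;> simp [mark, Ev.num]

theorem mark_cons {c : ℕ} {n : ℕ} {x y : Bool} {a b : List Bool} {st : St}
    (h : RepSt (c, x :: a, y :: b) st) : mark n st = [] := by
  cases h <;> simp [mark]

/-- In a state `pre` the patterns are as required. -/
def St.good : St → Prop
  | .pre a b => fw a b
  | _ => True

theorem rep_nx {c : ℕ} {x y : Bool} {a b : List Bool} {st : St}
    (h : RepSt (c, x :: a, y :: b) st) (hl : a.length = b.length) (v : Bool) :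
    RepSt (nc c x y v, a, b) (nx st v) := by
  cases h with
  | pre =>
    by_cases h1 : x = y
    · by_cases h2 : v = x
      · simpa [nc, nx, h1, h2] using RepSt.pre a b
      · simpa [nc, nx, h1, h1 ▸ h2] using RepSt.dead a b
    · by_cases h2 : v = x
      · simpa [nc, nx, h1, h2] using RepSt.src a b
      · simpa [nc, nx, h1, h2] using RepSt.tgt a b
  | src =>
    by_cases h2 : v = x
    · simpa [nc, nx, h2] using RepSt.src a b
    · simpa [nc, nx, h2] using RepSt.dead a b
  | tgt =>
    by_cases h2 : v = y
    · simpa [nc, nx, h2] using RepSt.tgt a b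
    · simpa [nc, nx, h2, hl] using RepSt.dead a b
  | dead => simpa [nc, nx] using RepSt.dead a b

theorem good_nx {st : St} (h : st.good) (v : Bool) : (nx st v).good := by
  match st, h with
  | .pre (x :: a) (y :: b), h =>
    by_cases h1 : x = y
    · by_cases h2 : v = x
      · have : fw a b := by simpa [St.good, fw, h1] using h
        simpa [nx, h1, h2, St.good] using this
      · simp [nx, h1, h1 ▸ h2, St.good]
    · by_cases h2 : v = x <;> simp [nx, h1, h2, St.good]
  | .pre (x :: a) [], h => exact h.elim
  | .pre [] b, h => exact absurd rfl (fw.ne_nil (b := b) h)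
  | .dead r', _ => trivial
  | .src (x :: a), _ => by_cases hv : v = x <;> simp [nx, hv, St.good]
  | .src [], _ => trivial
  | .tgt (x :: a), _ => by_cases hv : v = x <;> simp [nx, hv, St.good]
  | .tgt [], _ => trivial

theorem good_fin {a₀ b₀ : List Bool} (h0 : fw a₀ b₀) {st : St} (h : st.good) :
    (fin a₀ b₀ st).good := by
  unfold fin
  split <;> first | exact h0 | exact h

theorem fin_of_nil {a₀ b₀ : List Bool} {c : ℕ} {st : St} (h : RepSt (c, [], []) st)
    (hg : st.good) : fin a₀ b₀ st = .pre a₀ b₀ := by
  cases h with
  | pre => exact absurd rfl (fw.ne_nil (b := []) hg)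
  | src => rfl
  | tgt => rfl
  | dead => rfl

theorem fin_of_ne_nil {a₀ b₀ : List Bool} {c : ℕ} {a b : List Bool} {st : St}
    (h : RepSt (c, a, b) st) (ha : a ≠ []) (hl : a.length = b.length) :
    fin a₀ b₀ st = st := by
  obtain ⟨x, a, rfl⟩ := List.exists_cons_of_ne_nil ha
  obtain ⟨y, b, rfl⟩ : ∃ y b', b = y :: b' := by
    cases b with
    | nil => simp at hl
    | cons y b => exact ⟨y, b, rfl⟩
  cases h <;> simp [fin]

theorem rep_sN {a₀ b₀ : List Bool} {c : ℕ} {x y : Bool} {a b : List Bool} {st : St}
    (h : RepSt (c, x :: a, y :: b) st) (hl : a.length = b.length) (hg : st.good) (v : Bool) :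
    RepSt (sN a₀ b₀ (c, x :: a, y :: b) (true, v)) (fin a₀ b₀ (nx st v)) := by
  have h1 := rep_nx h hl v
  by_cases ha : a = []
  · obtain rfl : b = [] := List.length_eq_zero_iff.1 (by rw [← hl, ha]; rfl)
    subst ha
    rw [fin_of_nil h1 (good_nx hg v)]
    simpa [sN] using RepSt.pre a₀ b₀
  · rw [fin_of_ne_nil h1 ha hl]
    simpa [sN, ha] using h1

theorem eN_eq {c : ℕ} {x y : Bool} {a b : List Bool} {st : St}
    (h : RepSt (c, x :: a, y :: b) st) (hl : a.length = b.length) (v : Bool)
    (r : List (Bool × Bool)) (w : List Bool) (hr : (r.all fun q => !q.2) = w.all (!·)) :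
    eN (c, x :: a, y :: b) (true, v) r =
      (if w.all (!·) then (if v then fl r.length st else []) ++
        mark (2 ^ r.length) (nx st v) else []).map Ev.num := by
  unfold eN
  simp only [Bool.true_and, hr, List.tail_cons, List.headD_cons]
  by_cases hw : (w.all fun x => !x) = true
  · rw [if_pos hw, if_pos hw, List.map_append]
    congr 1
    · cases h with
      | pre => by_cases h1 : x = y <;> cases v <;> simp [fl, h1, Ev.num]
      | src => cases v <;> simp [fl]
      | tgt => cases v <;> simp [fl]
      | dead => cases v <;> simp [fl]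
    · have h1 := rep_nx h hl v
      by_cases ha : a = []
      · obtain rfl : b = [] := List.length_eq_zero_iff.1 (by rw [← hl, ha]; rfl)
        subst ha
        exact mark_nil h1
      · have : mark (2 ^ r.length) (nx st v) = [] := by
          obtain ⟨x', a', rfl⟩ := List.exists_cons_of_ne_nil ha
          obtain ⟨y', b', rfl⟩ : ∃ y b', b = y :: b' := by
            cases b with
            | nil => simp at hl
            | cons y b => exact ⟨y, b, rfl⟩
          exact mark_cons h1
        simp [this, ha]
  · rw [if_neg hw, if_neg hw]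
    rfl

theorem length_sN {a₀ b₀ : List Bool} (hab : a₀.length = b₀.length) (h0 : a₀ ≠ [])
    {s : ℕ × List Bool × List Bool} (hl : s.2.1.length = s.2.2.length) (hne : s.2.1 ≠ [])
    (p : Bool × Bool) : (sN a₀ b₀ s p).2.1.length = (sN a₀ b₀ s p).2.2.length ∧
      (sN a₀ b₀ s p).2.1 ≠ [] := by
  unfold sN
  split_ifs with h1 h2
  · exact ⟨hab, h0⟩
  · simp only [List.isEmpty_iff] at h2
    refine ⟨by simp [hl], h2⟩
  · exact ⟨hl, hne⟩

theorem evN_eq {a₀ b₀ : List Bool} (h0 : fw a₀ b₀)
    (ls : List Bool) : ∀ (w : List Bool) (_ : w.length = ls.length)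
    (s : ℕ × List Bool × List Bool) (st : St) (_ : RepSt s st) (_ : st.good)
    (_ : s.2.1.length = s.2.2.length) (_ : s.2.1 ≠ []),
    evN a₀ b₀ (ls.zip w) s = (evAt a₀ b₀ ls st w).map Ev.num := by
  induction ls with
  | nil =>
    intro w hw s st _ _ _ _
    simp [evN, evAt]
  | cons t ls ih =>
    intro w hw s st hs hg hl hne
    cases w with
    | nil => simp at hw
    | cons v w =>
      have hw' : w.length = ls.length := by simpa using hw
      rw [List.zip_cons_cons, evN_cons]
      cases t with
      | false =>
        have e1 : eN s (false, v) (ls.zip w) = [] := by simp [eN]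
        have e2 : sN a₀ b₀ s (false, v) = s := by simp [sN]
        rw [e1, e2, ih w hw' s st hs hg hl hne]
        simp [evAt]
      | true =>
        obtain ⟨h1, h2⟩ := length_sN h0.length_eq h0.ne_nil hl hne (true, v)
        obtain ⟨c, a, b⟩ := s
        obtain ⟨x, a, rfl⟩ := List.exists_cons_of_ne_nil hne
        obtain ⟨y, b, rfl⟩ : ∃ y b', b = y :: b' := by
          cases b with
          | nil => simp at hl
          | cons y b => exact ⟨y, b, rfl⟩
        have hl' : a.length = b.length := by simpa using hl
        have hall : ((ls.zip w).all fun q => !q.2) = w.all (!·) := by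
          have := List.map_snd_zip (l₁ := ls) (l₂ := w) (by omega)
          conv_rhs => rw [← this]
          rw [List.all_map]
          rfl
        have hlen : (ls.zip w).length = ls.length := by simp [hw']
        rw [eN_eq hs hl' v _ w hall, hlen,
          ih w hw' _ _ (rep_sN hs hl' hg v) (good_fin h0 (good_nx hg v)) h1 h2]
        simp only [evAt, List.map_append]

/-! ### instructions -/

/-- The code number of an act; `s = false`: addition, `s = true`: subtraction. -/
def SA.num (s : Bool) : SA → ℕ
  | .mv true => 0
  | .mv false => 1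
  | .cp true => 2
  | .cp false => 3
  | .tr => 4
  | .ad true => if s then 6 else 5
  | .ad false => if s then 8 else 7

/-- The instructions of an event, given by the code of the event. -/
def instN (d s : Bool) (p : ℕ × ℕ) : List (ℕ × ℕ) :=
  if p.1 = 0 then [(1, if d then 0 else 1)]
  else if p.1 = 1 then [(p.2, if d then 2 else 3), (p.2, if d then 1 else 0)]
  else if p.1 = 2 then [(p.2, 4)]
  else [(p.2, if d then (if s then 6 else 5) else (if s then 8 else 7)),
    (p.2, if d then 1 else 0)]

theorem instN_num (d s : Bool) (e : Ev) :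
    instN d s e.num = (e.code d).map fun x => (x.1, x.2.num s) := by
  cases e <;> cases d <;> cases s <;> simp [instN, Ev.num, Ev.code, SA.num]

/-- The instructions at the `t`-th cell of a sweep in direction `d` (with sign `s`) for the slide
from `a` to `b` on all chunks of the levels `ls`. -/
def insT (d s : Bool) (a b ls : List Bool) (t : ℕ) : List (ℕ × ℕ) :=
  (if d then evN a b (ls.zip (wordOf ls.length t)) (0, a, b) ++ [(0, 0)]
    else evN (a.map (!·)) (b.map (!·)) (ls.zip (wordOf ls.length t))
      (0, a.map (!·), b.map (!·)) ++ [(0, 0)]).flatMap (instN d s)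

theorem insT_eq {d : Bool} {a b : List Bool} (h0 : fwD d a b) (s : Bool) (ls : List Bool)
    (t : ℕ) : insT d s a b ls t =
      (insW d a b ls (wordOf ls.length t)).map fun x => (x.1, x.2.num s) := by
  have key : ∀ l : List Ev, (l.map Ev.num).flatMap (instN d s) =
      (codes d l).map fun x => (x.1, x.2.num s) := by
    intro l
    induction l with
    | nil => rfl
    | cons e l ih => simp [List.flatMap_cons, ih, instN_num]
  cases d with
  | true =>
    unfold insT insW
    simp only [if_true]
    rw [evN_eq (show fw a b from h0) ls _ (by simp) (0, a, b) (.pre a b) (.pre a b) h0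
      (fw.length_eq h0) (fw.ne_nil h0), ← key]
    simp [Ev.num]
  | false =>
    unfold insT insW
    simp only [Bool.false_eq_true, if_false]
    have h1 : fw (cpl a) (cpl b) := h0
    have := evN_eq h1 ls (wordOf ls.length t) (by simp) (0, cpl a, cpl b)
      (.pre (cpl a) (cpl b)) (.pre _ _) h1 (fw.length_eq h1) (fw.ne_nil h1)
    unfold cpl at this ⊢
    rw [this, ← key]
    simp [Ev.num]

end Vale.Agent.P338.R2.H110
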