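import Vale.Agent.P338.R2.H110.Num
import Vale.Agent.Lib.PolyTime.Bitwise
import Vale.Agent.Lib.PolyTime.Lists2
import Vale.Agent.Lib.PolyTime.NatArith2

/-! The instructions of a sweep are polynomial time computable. -/

namespace Vale.Agent.P338.R2.H110

open Vale.Agent.Lib.PolyTime

variable {A : Set Word} {α : Type*} [Enc α]

theorem pt_wordOf {K t : α → ℕ} (hK : PT A K) (hKb : PBd K) (ht : PT A t) :
    PT A (fun x => wordOf (K x) (t x)) := by
  unfold wordOf
  exact PT.map (f := fun x i => (t x).testBit (K x - 1 - i)) (PT.range hK hKb)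
    (PT.testBit (ht.comp PT.fst')
      (PT.sub (PT.sub (hK.comp PT.fst') (PT.const 1)) PT.snd'))

theorem pt_nc {c : α → ℕ} {x y v : α → Bool} (hc : PT A c) (hx : PT A x) (hy : PT A y)
    (hv : PT A v) : PT A (fun a => nc (c a) (x a) (y a) (v a)) := by
  have e : ∀ {f g : α → Bool}, PT A f → PT A g → PT A (fun a => decide (f a = g a)) := by
    intro f g hf hg
    refine (PT.not (PT.xor hf hg)).congr fun a => ?_
    cases f a <;> cases g a <;> rfl
  unfold nc
  exact PT.ite (PT.eqNat hc (PT.const 0))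
    (PT.ite (e hx hy) (PT.ite (e hv hx) (PT.const 0) (PT.const 3))
      (PT.ite (e hv hx) (PT.const 1) (PT.const 2)))
    (PT.ite (PT.eqNat hc (PT.const 1)) (PT.ite (e hv hx) (PT.const 1) (PT.const 3))
      (PT.ite (PT.eqNat hc (PT.const 2)) (PT.ite (e hv hy) (PT.const 2) (PT.const 3))
        (PT.const 3)))

theorem pt_sN {a₀ b₀ : α → List Bool} {s : α → ℕ × List Bool × List Bool}
    {p : α → Bool × Bool} (ha : PT A a₀) (hb : PT A b₀) (hs : PT A s) (hp : PT A p) :
    PT A (fun x => sN (a₀ x) (b₀ x) (s x) (p x)) := by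
  unfold sN
  refine PT.ite (hp.fst.congr fun a => Bool.decide_eq_true.symm) (PT.ite
    ((PT.isEmpty hs.snd.fst.tail).congr fun a => Bool.decide_eq_true.symm) ((PT.const 0).pair (ha.pair hb)) ?_) hs
  exact (pt_nc hs.fst (PT.headD hs.snd.fst (PT.const false))
    (PT.headD hs.snd.snd (PT.const false)) hp.snd).pair (hs.snd.fst.tail.pair hs.snd.snd.tail)

theorem pt_eN {s : α → ℕ × List Bool × List Bool} {p : α → Bool × Bool}
    {r : α → List (Bool × Bool)} (hs : PT A s) (hp : PT A p) (hr : PT A r) :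
    PT A (fun x => eN (s x) (p x) (r x)) := by
  have e : ∀ {f g : α → Bool}, PT A f → PT A g → PT A (fun a => decide (f a = g a)) := by
    intro f g hf hg
    refine (PT.not (PT.xor hf hg)).congr fun a => ?_
    cases f a <;> cases g a <;> rfl
  have hx := PT.headD hs.snd.fst (PT.const (A := A) false)
  have hy := PT.headD hs.snd.snd (PT.const (A := A) false)
  have hn := PT.length hr
  have hnb : PBd (fun x => (r x).length) := PBd.length hr
  have hm := PT.length hs.snd.fst.tail
  have hc := pt_nc hs.fst hx hy hp.snd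
  have c1 : PT A (fun x => (p x).1 && (r x).all fun q => !q.2) :=
    PT.and hp.fst (PT.all (f := fun _ (q : Bool × Bool) => !q.2) hr (PT.not PT.snd'.snd))
  have c2 : PT A (fun x => (p x).2 && (decide ((s x).1 = 0) &&
      !(decide ((s x).2.1.headD false = (s x).2.2.headD false)))) :=
    PT.and hp.snd (PT.and (PT.eqNat hs.fst (PT.const 0)) (PT.not (e hx hy)))
  have hq : ∀ {k : ℕ} {f : α → ℕ}, PT A f → PT A (fun x => [(k, f x)]) := fun hf =>
    PT.cons ((PT.const _).pair hf) PT.nil
  unfold eN
  refine PT.ite (c1.congr fun a => Bool.decide_eq_true.symm) (PT.append (PT.ite (c2.congr fun a => Bool.decide_eq_true.symm) ?_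
    (PT.const [])) (PT.ite ((PT.isEmpty hs.snd.fst.tail).congr fun a => Bool.decide_eq_true.symm) ?_
      (PT.const []))) (PT.const [])
  · exact hq (PT.pow (PT.const 2) (PT.sub hn hm) (hnb.mono fun a => Nat.sub_le _ _))
  · exact PT.ite (PT.eqNat hc (PT.const 1)) (hq (PT.pow (PT.const 2) hn hnb))
      (PT.ite (PT.eqNat hc (PT.const 2)) (hq (PT.pow (PT.const 2) hn hnb)) (PT.const []))

theorem esize_tail_le {β : Type*} [Enc β] (l : List β) : esize l.tail ≤ esize l := by
  simpa using esize_drop_le 1 l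

theorem sN_bound (a₀ b₀ : List Bool) (l : List (Bool × Bool))
    (s : ℕ × List Bool × List Bool) (h1 : s.1 ≤ 3) (h2 : esize s.2.1 ≤ esize a₀)
    (h3 : esize s.2.2 ≤ esize b₀) :
    (l.foldl (sN a₀ b₀) s).1 ≤ 3 ∧ esize (l.foldl (sN a₀ b₀) s).2.1 ≤ esize a₀ ∧
      esize (l.foldl (sN a₀ b₀) s).2.2 ≤ esize b₀ := by
  induction l generalizing s with
  | nil => exact ⟨h1, h2, h3⟩
  | cons p l ih =>
    rw [List.foldl_cons]
    apply ih
    · unfold sN
      split_ifs
      · simp
      · simp only [nc]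
        split_ifs <;> omega
      · exact h1
    · unfold sN
      split_ifs
      · exact le_rfl
      · exact (esize_tail_le _).trans h2
      · exact h2
    · unfold sN
      split_ifs
      · exact le_rfl
      · exact (esize_tail_le _).trans h3
      · exact h3

theorem pt_evN {a b : α → List Bool} {l : α → List (Bool × Bool)} (ha : PT A a) (hb : PT A b)
    (hl : PT A l) : PT A (fun x => evN (a x) (b x) (l x) (0, a x, b x)) := by
  have hst : PT A (fun q : α × ℕ =>
      ((l q.1).take q.2).foldl (sN (a q.1) (b q.1)) (0, a q.1, b q.1)) := by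
    refine PT.foldl (init := fun q : α × ℕ => (0, a q.1, b q.1))
      (f := fun q : α × ℕ => sN (a q.1) (b q.1)) (PT.take (hl.comp PT.fst') PT.snd')
      ((PT.const 0).pair ((ha.comp PT.fst').pair (hb.comp PT.fst')))
      (pt_sN (ha.comp PT.fst'.fst) (hb.comp PT.fst'.fst) PT.snd'.fst PT.snd'.snd)
      (b := fun q : α × ℕ => 2 * 3 + (2 * esize (a q.1) + esize (b q.1) + 1) + 1) ?_ ?_
    · have h1 : PBd (fun q : α × ℕ => esize (a q.1)) := (ha.comp PT.fst').pbd
      have h2 : PBd (fun q : α × ℕ => esize (b q.1)) := (hb.comp PT.fst').pbd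
      exact ((PBd.const _).add ((((PBd.const 2).mul h1).add h2).add (PBd.const 1))).add
        (PBd.const 1)
    · intro q i
      obtain ⟨h1, h2, h3⟩ := sN_bound (a q.1) (b q.1) (((l q.1).take q.2).take i)
        (0, a q.1, b q.1) (by simp) le_rfl le_rfl
      generalize (((l q.1).take q.2).take i).foldl (sN (a q.1) (b q.1)) (0, a q.1, b q.1) = s
        at h1 h2 h3
      obtain ⟨c, u, v⟩ := s
      rw [esize_pair, esize_pair]
      have h4 : esize c ≤ 3 := (esize_nat_le_self c).trans h1
      simp only at h2 h3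
      omega
  unfold evN
  refine PT.flatMap (f := fun x i => eN (((l x).take i).foldl (sN (a x) (b x)) (0, a x, b x))
    ((l x).getD i (false, false)) ((l x).drop (i + 1))) (PT.range (PT.length hl) (PBd.length hl))
    ?_
  exact pt_eN hst (PT.getD (hl.comp PT.fst') PT.snd' (PT.const _))
    (PT.drop (hl.comp PT.fst') (PT.add PT.snd' (PT.const 1)))

theorem pt_instN {d s : α → Bool} {p : α → ℕ × ℕ} (hd : PT A d) (hs : PT A s) (hp : PT A p) :
    PT A (fun x => instN (d x) (s x) (p x)) := by
  have i1 : ∀ {f g : α → ℕ}, PT A f → PT A g → PT A (fun x => if d x = true then f x else g x) :=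
    fun hf hg => PT.ite (hd.congr fun a => Bool.decide_eq_true.symm) hf hg
  have i2 : ∀ {f g : α → ℕ}, PT A f → PT A g → PT A (fun x => if s x = true then f x else g x) :=
    fun hf hg => PT.ite (hs.congr fun a => Bool.decide_eq_true.symm) hf hg
  have k : ∀ n : ℕ, PT A (fun _ : α => n) := fun n => PT.const n
  unfold instN
  exact PT.ite (PT.eqNat hp.fst (k 0)) (PT.cons ((k 1).pair (i1 (k 0) (k 1))) PT.nil)
    (PT.ite (PT.eqNat hp.fst (k 1)) (PT.cons (hp.snd.pair (i1 (k 2) (k 3)))
      (PT.cons (hp.snd.pair (i1 (k 1) (k 0))) PT.nil))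
      (PT.ite (PT.eqNat hp.fst (k 2)) (PT.cons (hp.snd.pair (k 4)) PT.nil)
        (PT.cons (hp.snd.pair (i1 (i2 (k 6) (k 5)) (i2 (k 8) (k 7))))
          (PT.cons (hp.snd.pair (i1 (k 1) (k 0))) PT.nil))))

/-- **The instructions of a sweep are polynomial time computable.** -/
theorem pt_insT {d s : α → Bool} {a b ls : α → List Bool} {t : α → ℕ} (hd : PT A d)
    (hs : PT A s) (ha : PT A a) (hb : PT A b) (hls : PT A ls) (ht : PT A t) :
    PT A (fun x => insT (d x) (s x) (a x) (b x) (ls x) (t x)) := by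
  have hz : PT A (fun x => (ls x).zip (wordOf (ls x).length (t x))) :=
    PT.zip hls (pt_wordOf (PT.length hls) (PBd.length hls) ht)
  have hn : ∀ {f : α → List Bool}, PT A f → PT A (fun x => (f x).map (!·)) := fun hf =>
    PT.map (f := fun _ (v : Bool) => !v) hf (PT.not PT.snd')
  unfold insT
  refine PT.flatMap (f := fun x p => instN (d x) (s x) p) (PT.ite (hd.congr fun a => Bool.decide_eq_true.symm)
    (PT.append (pt_evN ha hb hz) (PT.const _))
    (PT.append (pt_evN (hn ha) (hn hb) hz) (PT.const _))) ?_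
  exact pt_instN (hd.comp PT.fst') (hs.comp PT.fst') PT.snd'

end Vale.Agent.P338.R2.H110
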