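import Vale.Agent.P338.R2.H110.Sweep

/-! Correctness of one sweep. -/

namespace Vale.Agent.P338.R2.H110

variable {α : Type*}

/-- Like `nxt`, but `r = 0` means that a new chunk starts here. -/
def nx1 (op : α → α → α) (a₀ b₀ ls : List Bool) (r : ℕ) (f : List Bool → α) : List Bool → α :=
  if r = 0 then slideAll op a₀ b₀ ls f else nxt op a₀ b₀ ls r f

theorem tab_nxt_succ (op : α → α → α) (a₀ b₀ ls : List Bool) (r : ℕ) (f : List Bool → α) :
    tab (ls.length + 1) (nxt op a₀ b₀ (true :: ls) (r + 1) f) =
      tab ls.length (nx1 op a₀ b₀ ls r (fun w => f (false :: w))) ++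
      tab ls.length (nx1 op a₀ b₀ ls r (fun w => f (true :: w))) := by
  by_cases hr : r = 0
  · subst hr
    simpa [nx1] using tab_nxt_true_one op a₀ b₀ ls f
  · rw [tab_nxt_true op a₀ b₀ ls (by omega) f]
    simp [nx1, hr]

theorem ok_succ {m : ℕ} {ls : List Bool} {r : ℕ} (h : ok m (true :: ls) (r + 1)) :
    if r = 0 then ok m ls m else ok m ls r := by
  simpa [ok] using h

section
variable (op : α → α → α) (a₀ b₀ ls : List Bool)

/-- `e` turns the block `f` into the block `f'` and leaves the stacks unchanged. -/
def Cl (n : ℕ) (e : List Ev) (f f' : List Bool → α) : Prop :=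
  ∀ d rs A B, Runs op e ⟨d, tab n f ++ rs, A, B⟩ ⟨(tab n f').reverse ++ d, rs, A, B⟩

/-- `e` turns the block `f` into the block `f'` and copies the list `s` to `A`. -/
def Sr (n : ℕ) (e : List Ev) (f f' : List Bool → α) (s : List α) : Prop :=
  ∀ d rs A B, Runs op e ⟨d, tab n f ++ rs, A, B⟩
    ⟨(tab n f').reverse ++ d, rs, s.reverse ++ A, B⟩

/-- `e` turns the block `f` into the block `f'` using up the list `s` on `B`. -/
def Tg (n : ℕ) (e : List Ev) (f f' : List Bool → α) (s : List α) : Prop :=
  ∀ d rs A B, Runs op e ⟨d, tab n f ++ rs, A, s ++ B⟩ ⟨(tab n f').reverse ++ d, rs, A, B⟩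

end

variable {op : α → α → α} {a₀ b₀ : List Bool}

theorem Cl.app {n : ℕ} {e e' : List Ev} {f f' : List Bool → α}
    (h : Cl op n e (fun w => f (false :: w)) (fun w => f' (false :: w)))
    (h' : Cl op n e' (fun w => f (true :: w)) (fun w => f' (true :: w))) :
    Cl op (n + 1) (e ++ e') f f' := by
  intro d rs A B
  simp only [tab, List.append_assoc, List.reverse_append]
  exact (h _ _ _ _).append (h' _ _ _ _)

theorem Sr.app {n : ℕ} {e e' : List Ev} {f f' : List Bool → α} {s s' : List α}
    (h : Sr op n e (fun w => f (false :: w)) (fun w => f' (false :: w)) s)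
    (h' : Sr op n e' (fun w => f (true :: w)) (fun w => f' (true :: w)) s') :
    Sr op (n + 1) (e ++ e') f f' (s ++ s') := by
  intro d rs A B
  simp only [tab, List.append_assoc, List.reverse_append]
  exact (h _ _ _ _).append (h' _ _ _ _)

theorem Tg.app {n : ℕ} {e e' : List Ev} {f f' : List Bool → α} {s s' : List α}
    (h : Tg op n e (fun w => f (false :: w)) (fun w => f' (false :: w)) s)
    (h' : Tg op n e' (fun w => f (true :: w)) (fun w => f' (true :: w)) s') :
    Tg op (n + 1) (e ++ e') f f' (s ++ s') := by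
  intro d rs A B
  simp only [tab, List.append_assoc, List.reverse_append]
  exact (h _ _ _ _).append (h' _ _ _ _)

theorem Cl.sr {n : ℕ} {e : List Ev} {f f' : List Bool → α} (h : Cl op n e f f') :
    Sr op n e f f' [] := h

theorem Cl.tg {n : ℕ} {e : List Ev} {f f' : List Bool → α} (h : Cl op n e f f') :
    Tg op n e f f' [] := h

theorem Cl.congr {n : ℕ} {e : List Ev} {f f' f'' : List Bool → α} (h : Cl op n e f f')
    (hf : tab n f' = tab n f'') : Cl op n e f f'' := by
  intro d rs A B; rw [← hf]; exact h d rs A B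

theorem Sr.congr {n : ℕ} {e : List Ev} {f f' f'' : List Bool → α} {s : List α}
    (h : Sr op n e f f' s) (hf : tab n f' = tab n f'') : Sr op n e f f'' s := by
  intro d rs A B; rw [← hf]; exact h d rs A B

theorem Tg.congr {n : ℕ} {e : List Ev} {f f' f'' : List Bool → α} {s : List α}
    (h : Tg op n e f f' s) (hf : tab n f' = tab n f'') : Tg op n e f f'' s := by
  intro d rs A B; rw [← hf]; exact h d rs A B

theorem Cl.push {n : ℕ} {e : List Ev} {f f' : List Bool → α} (h : Cl op n e f f') :
    Sr op n ([.push (2 ^ n)] ++ e) f f' (tab n f) := by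
  intro d rs A B
  refine .cons (by simp [Ev.ok]) ?_
  simp only [Ev.run]
  rw [take_tab_append]
  exact h _ _ _ _

theorem Cl.pop {n : ℕ} {e : List Ev} {f g f' : List Bool → α}
    (h : Cl op n e (fun w => op (f w) (g w)) f') :
    Tg op n ([.pop (2 ^ n)] ++ e) f f' (tab n g) := by
  intro d rs A B
  refine .cons (by simp [Ev.ok]) ?_
  simp only [Ev.run]
  rw [take_tab_append, take_tab_append, drop_tab_append, drop_tab_append, zipWith_tab]
  exact h _ _ _ _

/-- The four statements of the induction. -/
structure Main (op : α → α → α) (a₀ b₀ ls : List Bool) : Prop where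
  pre : ∀ (a b : List Bool) (f : List Bool → α), fw a b → a.length ≤ a₀.length →
    ok a₀.length ls a.length →
    Cl op ls.length (go a₀ b₀ ls (.pre a b)) f (nxt op a₀ b₀ ls a.length (cur op ls a b f))
  dead : ∀ (r : ℕ) (f : List Bool → α), 1 ≤ r → ok a₀.length ls r →
    Cl op ls.length (go a₀ b₀ ls (.dead r)) f (nxt op a₀ b₀ ls r f)
  src : ∀ (a : List Bool) (f : List Bool → α), a ≠ [] → a.length < a₀.length →
    ok a₀.length ls a.length →
    Sr op ls.length (go a₀ b₀ ls (.src a)) f (nxt op a₀ b₀ ls a.length f) (selL ls a f)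
  tgt : ∀ (a b : List Bool) (g f : List Bool → α), b ≠ [] → a.length = b.length →
    b.length < a₀.length → ok a₀.length ls b.length →
    Tg op ls.length (go a₀ b₀ ls (.tgt b)) f
      (nxt op a₀ b₀ ls b.length (ins op ls a b g f)) (selL ls a g)

theorem Main.start {ls : List Bool} (h : Main op a₀ b₀ ls) (h0 : fw a₀ b₀)
    (hok : ok a₀.length ls a₀.length) (f : List Bool → α) :
    Cl op ls.length (go a₀ b₀ ls (.pre a₀ b₀)) f (slideAll op a₀ b₀ ls f) :=
  h.pre a₀ b₀ f h0 le_rfl hok

/-- entering a child in state `dead r` -/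
theorem Main.edead {ls : List Bool} (h : Main op a₀ b₀ ls) (h0 : fw a₀ b₀) (r : ℕ)
    (hok : if r = 0 then ok a₀.length ls a₀.length else ok a₀.length ls r)
    (f : List Bool → α) :
    Cl op ls.length (mark (2 ^ ls.length) (.dead r) ++ go a₀ b₀ ls (fin a₀ b₀ (.dead r))) f
      (nx1 op a₀ b₀ ls r f) := by
  rcases r with _ | r
  · simpa [mark, fin, nx1] using h.start h0 (by simpa using hok) f
  · simpa [mark, fin, nx1] using h.dead (r + 1) f (by omega) (by simpa using hok)

theorem Main.esrc {ls : List Bool} (h : Main op a₀ b₀ ls) (h0 : fw a₀ b₀) (a : List Bool)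
    (ha : a.length < a₀.length)
    (hok : if a.length = 0 then ok a₀.length ls a₀.length else ok a₀.length ls a.length)
    (f : List Bool → α) :
    Sr op ls.length (mark (2 ^ ls.length) (.src a) ++ go a₀ b₀ ls (fin a₀ b₀ (.src a))) f
      (nx1 op a₀ b₀ ls a.length f) (selL ls a f) := by
  rcases a with _ | ⟨x, a⟩
  · have := (h.start h0 (by simpa using hok) f).push
    cases ls <;> simpa [mark, fin, nx1, selL] using this
  · simpa [mark, fin, nx1] using h.src (x :: a) f (by simp) ha (by simpa using hok)

theorem Main.etgt {ls : List Bool} (h : Main op a₀ b₀ ls) (h0 : fw a₀ b₀) (a b : List Bool)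
    (hab : a.length = b.length) (hb : b.length < a₀.length)
    (hok : if b.length = 0 then ok a₀.length ls a₀.length else ok a₀.length ls b.length)
    (g f : List Bool → α) :
    Tg op ls.length (mark (2 ^ ls.length) (.tgt b) ++ go a₀ b₀ ls (fin a₀ b₀ (.tgt b))) f
      (nx1 op a₀ b₀ ls b.length (ins op ls a b g f)) (selL ls a g) := by
  rcases b with _ | ⟨y, b⟩
  · obtain rfl : a = [] := List.length_eq_zero_iff.1 (by simpa using hab)
    have h1 : (ins op ls [] [] g f) = fun w => op (f w) (g w) := by
      funext w; cases ls <;> simp [ins]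
    have := (h.start h0 (by simpa using hok) (fun w => op (f w) (g w))).pop
    rw [h1]
    cases ls <;> simpa [mark, fin, nx1, selL] using this
  · simpa [mark, fin, nx1] using h.tgt a (y :: b) g f (by simp) hab hb (by simpa using hok)

theorem main_nil : Main op a₀ b₀ [] where
  pre a b f _ _ h := by
    intro d rs A B
    exact .one (by simp [Ev.ok, tab]) (by simp [Ev.run, tab, nxt, cur])
  dead r f _ _ := by
    intro d rs A B
    exact .one (by simp [Ev.ok, tab]) (by simp [Ev.run, tab, nxt])
  src a f _ h1 h2 := by simp only [ok] at h2; omega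
  tgt a b g f _ _ h1 h2 := by simp only [ok] at h2; omega

theorem main_false {ls : List Bool} (h : Main op a₀ b₀ ls) : Main op a₀ b₀ (false :: ls) where
  pre a b f hf hle hok := by
    refine Cl.app ?_ ?_
    · exact (h.pre a b _ hf hle hok)
    · exact (h.pre a b _ hf hle hok)
  dead r f hr hok := Cl.app (h.dead r _ hr hok) (h.dead r _ hr hok)
  src a f ha hm hok := by
    obtain ⟨x, a, rfl⟩ := List.exists_cons_of_ne_nil ha
    exact Sr.app (h.src _ _ ha hm hok) (h.src _ _ ha hm hok)
  tgt a b g f hb hab hm hok := by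
    obtain ⟨y, b, rfl⟩ := List.exists_cons_of_ne_nil hb
    obtain ⟨x, a, rfl⟩ : ∃ x a', a = x :: a' := by
      cases a with
      | nil => simp at hab
      | cons x a => exact ⟨x, a, rfl⟩
    exact Tg.app (h.tgt (x :: a) (y :: b) (fun w => g (false :: w)) (fun w => f (false :: w))
        hb hab hm hok)
      (h.tgt (x :: a) (y :: b) (fun w => g (true :: w)) (fun w => f (true :: w)) hb hab hm hok)

theorem Cl.app' {n : ℕ} {e e' : List Ev} {f f' g₀ g₁ : List Bool → α}
    (h : Cl op n e (fun w => f (false :: w)) g₀) (h' : Cl op n e' (fun w => f (true :: w)) g₁)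
    (hf : tab (n + 1) f' = tab n g₀ ++ tab n g₁) : Cl op (n + 1) (e ++ e') f f' := by
  intro d rs A B
  rw [hf]
  simp only [tab, List.append_assoc, List.reverse_append]
  exact (h _ _ _ _).append (h' _ _ _ _)

theorem Sr.app' {n : ℕ} {e e' : List Ev} {f f' g₀ g₁ : List Bool → α} {s s' : List α}
    (h : Sr op n e (fun w => f (false :: w)) g₀ s)
    (h' : Sr op n e' (fun w => f (true :: w)) g₁ s')
    (hf : tab (n + 1) f' = tab n g₀ ++ tab n g₁) : Sr op (n + 1) (e ++ e') f f' (s ++ s') := by
  intro d rs A B
  rw [hf]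
  simp only [tab, List.append_assoc, List.reverse_append]
  exact (h _ _ _ _).append (h' _ _ _ _)

theorem Tg.app' {n : ℕ} {e e' : List Ev} {f f' g₀ g₁ : List Bool → α} {s s' : List α}
    (h : Tg op n e (fun w => f (false :: w)) g₀ s)
    (h' : Tg op n e' (fun w => f (true :: w)) g₁ s')
    (hf : tab (n + 1) f' = tab n g₀ ++ tab n g₁) : Tg op (n + 1) (e ++ e') f f' (s ++ s') := by
  intro d rs A B
  rw [hf]
  simp only [tab, List.append_assoc, List.reverse_append]
  exact (h _ _ _ _).append (h' _ _ _ _)

theorem Sr.flip' {n : ℕ} {e e' : List Ev} {f f' g₀ g₁ : List Bool → α} {s : List α}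
    (h : Sr op n e (fun w => f (false :: w)) g₀ s) {k : ℕ} (hk : s.length = k)
    (h' : Tg op n e' (fun w => f (true :: w)) g₁ s)
    (hf : tab (n + 1) f' = tab n g₀ ++ tab n g₁) :
    Cl op (n + 1) (e ++ [.flip k] ++ e') f f' := by
  subst hk
  intro d rs A B
  rw [hf]
  simp only [tab, List.append_assoc, List.reverse_append]
  refine (h _ _ _ _).append (.cons (by simp [Ev.ok]) ?_)
  simp only [Ev.run]
  rw [List.take_append_of_le_length (by simp), List.take_of_length_le (by simp),
    List.reverse_reverse, List.drop_append_of_le_length (by simp),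
    List.drop_of_length_le (by simp), List.nil_append]
  exact h' _ _ _ _

theorem fw.ne_nil {a b : List Bool} (h : fw a b) : a ≠ [] := by
  rintro rfl; cases b <;> exact h.elim

theorem cur_true_eq (ls a b : List Bool) (x : Bool) (f : List Bool → α) (v : Bool) :
    (fun w => cur op (true :: ls) (x :: a) (x :: b) f (v :: w)) =
      if v = x then cur op ls a b (fun w => f (v :: w)) else fun w => f (v :: w) := by
  funext w
  by_cases h : v = x <;> simp [cur, h]

theorem main_true {ls : List Bool} (h : Main op a₀ b₀ ls) (h0 : fw a₀ b₀) :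
    Main op a₀ b₀ (true :: ls) where
  pre a b f hf hle hok := by
    obtain ⟨x, a, rfl⟩ := List.exists_cons_of_ne_nil hf.ne_nil
    obtain ⟨y, b, rfl⟩ : ∃ y b', b = y :: b' := by
      cases b with
      | nil => exact hf.elim
      | cons y b => exact ⟨y, b, rfl⟩
    have hok' := ok_succ hok
    by_cases hxy : x = y
    · subst hxy
      have hf' : fw a b := by simpa [fw] using hf
      have ha : a.length ≠ 0 := by
        simpa [List.length_eq_zero_iff] using hf'.ne_nil
      have key : ∀ v, Cl op ls.length
          (mark (2 ^ ls.length) (nx (.pre (x :: a) (x :: b)) v) ++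
            go a₀ b₀ ls (fin a₀ b₀ (nx (.pre (x :: a) (x :: b)) v)))
          (fun w => f (v :: w))
          (nx1 op a₀ b₀ ls a.length
            (fun w => cur op (true :: ls) (x :: a) (x :: b) f (v :: w))) := by
        intro v
        rw [cur_true_eq]
        by_cases hv : v = x
        · have := h.pre a b (fun w => f (v :: w)) hf' (by simp at hle; omega)
            (by simpa [ha] using hok')
          simpa [nx, hv, mark, fin, nx1, ha] using this
        · have := h.edead h0 a.length hok' (fun w => f (v :: w))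
          simpa [nx, hv] using this
      have e1 : go a₀ b₀ (true :: ls) (.pre (x :: a) (x :: b)) =
          (mark (2 ^ ls.length) (nx (.pre (x :: a) (x :: b)) false) ++
            go a₀ b₀ ls (fin a₀ b₀ (nx (.pre (x :: a) (x :: b)) false))) ++
          (mark (2 ^ ls.length) (nx (.pre (x :: a) (x :: b)) true) ++
            go a₀ b₀ ls (fin a₀ b₀ (nx (.pre (x :: a) (x :: b)) true))) := by
        simp [go, fl]
      rw [e1]
      exact Cl.app' (key false) (key true) (tab_nxt_succ op a₀ b₀ ls a.length _)
    · have hf' : x = false ∧ y = true ∧ a.length = b.length := by simpa [fw, hxy] using hf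
      obtain ⟨rfl, rfl, hab⟩ := hf'
      have hlt : a.length < a₀.length := by simp at hle; omega
      have k0 := h.esrc h0 a hlt hok' (fun w => f (false :: w))
      have k1 := h.etgt h0 a b hab (hab ▸ hlt) (hab ▸ hok') (fun w => f (false :: w))
        (fun w => f (true :: w))
      have e1 : go a₀ b₀ (true :: ls) (.pre (false :: a) (true :: b)) =
          (mark (2 ^ ls.length) (.src a) ++ go a₀ b₀ ls (fin a₀ b₀ (.src a))) ++
          [.flip (2 ^ (ls.length - a.length))] ++
          (mark (2 ^ ls.length) (.tgt b) ++ go a₀ b₀ ls (fin a₀ b₀ (.tgt b))) := by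
        simp [go, fl, nx]
      rw [e1]
      refine Sr.flip' k0 ?_ k1 ?_
      · by_cases ha : a = []
        · subst ha; cases ls <;> simp [selL]
        · exact (length_selL ls a _ hlt (by simpa [ha] using hok') ha).1
      · rw [show (false :: a).length = a.length + 1 from rfl, tab_nxt_succ, hab]
        congr 2
  dead r f hr hok := by
    obtain ⟨r, rfl⟩ : ∃ r', r = r' + 1 := ⟨r - 1, by omega⟩
    have hok' := ok_succ hok
    have key : ∀ v : Bool, Cl op ls.length
        (mark (2 ^ ls.length) (nx (.dead (r + 1)) v) ++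
          go a₀ b₀ ls (fin a₀ b₀ (nx (.dead (r + 1)) v)))
        (fun w => f (v :: w)) (nx1 op a₀ b₀ ls r (fun w => f (v :: w))) := by
      intro v
      exact h.edead h0 r hok' _
    have e1 : go a₀ b₀ (true :: ls) (.dead (r + 1)) =
        (mark (2 ^ ls.length) (nx (.dead (r + 1)) false) ++
          go a₀ b₀ ls (fin a₀ b₀ (nx (.dead (r + 1)) false))) ++
        (mark (2 ^ ls.length) (nx (.dead (r + 1)) true) ++
          go a₀ b₀ ls (fin a₀ b₀ (nx (.dead (r + 1)) true))) := by
      simp [go, fl]
    rw [e1]
    exact Cl.app' (key false) (key true) (tab_nxt_succ op a₀ b₀ ls r _)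
  src a f ha hm hok := by
    obtain ⟨x, a, rfl⟩ := List.exists_cons_of_ne_nil ha
    have hok' := ok_succ hok
    have hlt : a.length < a₀.length := by simp at hm; omega
    have e1 : go a₀ b₀ (true :: ls) (.src (x :: a)) =
        (mark (2 ^ ls.length) (nx (.src (x :: a)) false) ++
          go a₀ b₀ ls (fin a₀ b₀ (nx (.src (x :: a)) false))) ++
        (mark (2 ^ ls.length) (nx (.src (x :: a)) true) ++
          go a₀ b₀ ls (fin a₀ b₀ (nx (.src (x :: a)) true))) := by
      simp [go, fl]
    rw [e1]
    have kx := h.esrc h0 a hlt hok' (fun w => f (x :: w))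
    have kd := fun v : Bool => (h.edead h0 a.length hok' (fun w => f (v :: w))).sr
    cases x with
    | false =>
      have := Sr.app' (f := f) kx (kd true)
        (tab_nxt_succ op a₀ b₀ ls a.length f)
      simpa [selL, nx] using this
    | true =>
      have := Sr.app' (f := f) (kd false) kx
        (tab_nxt_succ op a₀ b₀ ls a.length f)
      simpa [selL, nx] using this
  tgt a b g f hb hab hm hok := by
    obtain ⟨y, b, rfl⟩ := List.exists_cons_of_ne_nil hb
    obtain ⟨x, a, rfl⟩ : ∃ x a', a = x :: a' := by
      cases a with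
      | nil => simp at hab
      | cons x a => exact ⟨x, a, rfl⟩
    have hok' := ok_succ hok
    have hlt : b.length < a₀.length := by simp at hm; omega
    have hab' : a.length = b.length := by simpa using hab
    have e1 : go a₀ b₀ (true :: ls) (.tgt (y :: b)) =
        (mark (2 ^ ls.length) (nx (.tgt (y :: b)) false) ++
          go a₀ b₀ ls (fin a₀ b₀ (nx (.tgt (y :: b)) false))) ++
        (mark (2 ^ ls.length) (nx (.tgt (y :: b)) true) ++
          go a₀ b₀ ls (fin a₀ b₀ (nx (.tgt (y :: b)) true))) := by
      simp [go, fl]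
    rw [e1]
    have kx := h.etgt h0 a b hab' hlt hok' (fun w => g (x :: w)) (fun w => f (y :: w))
    have kd := fun v : Bool => (h.edead h0 b.length hok' (fun w => f (v :: w))).tg
    have hT : tab (ls.length + 1)
        (nxt op a₀ b₀ (true :: ls) (b.length + 1) (ins op (true :: ls) (x :: a) (y :: b) g f)) =
        tab ls.length (nx1 op a₀ b₀ ls b.length
          (fun w => ins op (true :: ls) (x :: a) (y :: b) g f (false :: w))) ++
        tab ls.length (nx1 op a₀ b₀ ls b.length
          (fun w => ins op (true :: ls) (x :: a) (y :: b) g f (true :: w))) :=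
      tab_nxt_succ op a₀ b₀ ls b.length _
    cases y with
    | false =>
      have := Tg.app' (f := f) (f' := nxt op a₀ b₀ (true :: ls) (b.length + 1)
        (ins op (true :: ls) (x :: a) (false :: b) g f)) kx (kd true) (by
          rw [hT]; simp [ins])
      simpa [selL, nx] using this
    | true =>
      have := Tg.app' (f := f) (f' := nxt op a₀ b₀ (true :: ls) (b.length + 1)
        (ins op (true :: ls) (x :: a) (true :: b) g f)) (kd false) kx (by
          rw [hT]; simp [ins])
      simpa [selL, nx] using this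

theorem main (h0 : fw a₀ b₀) : ∀ ls : List Bool, Main op a₀ b₀ ls
  | [] => main_nil
  | false :: ls => main_false (main h0 ls)
  | true :: ls => main_true (main h0 ls) h0

/-- **One sweep**: the events `go a₀ b₀ ls (.pre a₀ b₀)` perform the slide on every chunk and
leave the stacks unchanged. -/
theorem sweep (h0 : fw a₀ b₀) {ls : List Bool} (hok : ok a₀.length ls a₀.length)
    (f : List Bool → α) (d rs A B : List α) :
    Runs op (go a₀ b₀ ls (.pre a₀ b₀)) ⟨d, tab ls.length f ++ rs, A, B⟩
      ⟨(tab ls.length (slideAll op a₀ b₀ ls f)).reverse ++ d, rs, A, B⟩ :=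
  (main h0 ls).start h0 hok f d rs A B

/-- The effect of one sweep. -/
theorem sweep_eq (h0 : fw a₀ b₀) {ls : List Bool} (hok : ok a₀.length ls a₀.length)
    (f : List Bool → α) (d rs A B : List α) :
    runs op (go a₀ b₀ ls (.pre a₀ b₀)) ⟨d, tab ls.length f ++ rs, A, B⟩ =
      ⟨(tab ls.length (slideAll op a₀ b₀ ls f)).reverse ++ d, rs, A, B⟩ :=
  (sweep h0 hok f d rs A B).eq

/-- One sweep touches only existing cells. -/
theorem sweep_legs (h0 : fw a₀ b₀) {ls : List Bool} (hok : ok a₀.length ls a₀.length)
    (f : List Bool → α) (d rs A B : List α) :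
    legs op (go a₀ b₀ ls (.pre a₀ b₀)) ⟨d, tab ls.length f ++ rs, A, B⟩ :=
  (sweep h0 hok f d rs A B).legs

end Vale.Agent.P338.R2.H110
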