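import Vale.Agent.P338.R2.H110.Ev

/-! One sweep for one slide on all chunks of active bits at once.

`ls : List Bool` are the levels of the index (first = most significant bit), `true` = active.
The active levels are cut into chunks of `m` consecutive active levels; in every chunk the slide
`x[b] := op x[b] x[a]` is performed (`a`, `b` words of `m` bits, at the first difference `a` has
`false` and `b` has `true`). -/

namespace Vale.Agent.P338.R2.H110

variable {α : Type*}

/-- State inside a chunk: what remains of the patterns. -/
inductive St
  | pre (a b : List Bool)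
  | src (a : List Bool)
  | tgt (b : List Bool)
  | dead (r : ℕ)
  deriving DecidableEq, Repr

/-- Next state (before the completion of a chunk is taken into account). -/
def nx : St → Bool → St
  | .pre (x :: a) (y :: b), v =>
      if x = y then (if v = x then .pre a b else .dead a.length)
      else (if v = x then .src a else .tgt b)
  | .src (x :: a), v => if v = x then .src a else .dead a.length
  | .tgt (y :: b), v => if v = y then .tgt b else .dead b.length
  | .dead r, _ => .dead (r - 1)
  | st, _ => st

/-- Completion of a chunk. -/
def fin (a₀ b₀ : List Bool) : St → St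
  | .src [] => .pre a₀ b₀
  | .tgt [] => .pre a₀ b₀
  | .dead 0 => .pre a₀ b₀
  | st => st

/-- Block operation at the completion of a chunk, `sz` = number of cells of the block. -/
def mark (sz : ℕ) : St → List Ev
  | .src [] => [.push sz]
  | .tgt [] => [.pop sz]
  | _ => []

/-- Transfer between the two halves at the first difference of `a` and `b`;
`n` = number of levels below. -/
def fl (n : ℕ) : St → List Ev
  | .pre (x :: a) (y :: _) => if x = y then [] else [.flip (2 ^ (n - a.length))]
  | _ => []

/-- The events of a sweep. -/
def go (a₀ b₀ : List Bool) : List Bool → St → List Ev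
  | [], _ => [.adv]
  | false :: ls, st => go a₀ b₀ ls st ++ go a₀ b₀ ls st
  | true :: ls, st =>
      mark (2 ^ ls.length) (nx st false) ++ go a₀ b₀ ls (fin a₀ b₀ (nx st false)) ++
      fl ls.length st ++
      (mark (2 ^ ls.length) (nx st true) ++ go a₀ b₀ ls (fin a₀ b₀ (nx st true)))

/-- The levels end exactly at the end of a chunk, if `r` active levels remain in the present
chunk. -/
def ok (m : ℕ) : List Bool → ℕ → Prop
  | [], r => r = m
  | false :: ls, r => ok m ls r
  | true :: ls, r => if r = 1 then ok m ls m else ok m ls (r - 1)

/-- At the first difference of the patterns `a` has `false` and `b` has `true`. -/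
def fw : List Bool → List Bool → Prop
  | x :: a, y :: b => if x = y then fw a b else x = false ∧ y = true ∧ a.length = b.length
  | _, _ => False

theorem fw.length_eq : ∀ {a b : List Bool}, fw a b → a.length = b.length
  | x :: a, y :: b, h => by
    unfold fw at h
    split_ifs at h
    · simpa using fw.length_eq h
    · simpa using h.2.2
  | [], [], h => h.elim
  | [], _ :: _, h => h.elim
  | _ :: _, [], h => h.elim

/-- The source cells (pattern `a` on the remaining active levels of the chunk), in order. -/
def selL : List Bool → List Bool → (List Bool → α) → List α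
  | ls, [], f => tab ls.length f
  | [], _ :: _, _ => []
  | false :: ls, x :: a, f =>
      selL ls (x :: a) (fun w => f (false :: w)) ++ selL ls (x :: a) (fun w => f (true :: w))
  | true :: ls, x :: a, f => selL ls a (fun w => f (x :: w))

/-- Array `f` after the sources in the array `g` are combined with the targets in `f`. -/
def ins (op : α → α → α) : List Bool → List Bool → List Bool → (List Bool → α) →
    (List Bool → α) → List Bool → α
  | _, [], _, g, f, w => op (f w) (g w)
  | false :: ls, x :: a, y :: b, g, f, v :: w =>
      ins op ls (x :: a) (y :: b) (fun w => g (v :: w)) (fun w => f (v :: w)) w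
  | true :: ls, x :: a, y :: b, g, f, v :: w =>
      if v = y then ins op ls a b (fun w => g (x :: w)) (fun w => f (y :: w)) w else f (v :: w)
  | _, _, _, _, f, w => f w

/-- The slide on the present chunk. -/
def cur (op : α → α → α) : List Bool → List Bool → List Bool → (List Bool → α) → List Bool → α
  | false :: ls, a, b, f, v :: w => cur op ls a b (fun w => f (v :: w)) w
  | true :: ls, x :: a, y :: b, f, v :: w =>
      if x = y then (if v = x then cur op ls a b (fun w => f (v :: w)) w else f (v :: w))
      else (if v = false then f (v :: w)
        else ins op ls a b (fun w => f (false :: w)) (fun w => f (true :: w)) w)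
  | _, _, _, f, w => f w

/-- The slide on all chunks after the present one; `r` active levels remain in the present
chunk. -/
def nxt (op : α → α → α) (a₀ b₀ : List Bool) : List Bool → ℕ → (List Bool → α) → List Bool → α
  | false :: ls, r, f, v :: w => nxt op a₀ b₀ ls r (fun w => f (v :: w)) w
  | true :: ls, r, f, v :: w =>
      if r = 1 then nxt op a₀ b₀ ls a₀.length (cur op ls a₀ b₀ (fun w => f (v :: w))) w
      else nxt op a₀ b₀ ls (r - 1) (fun w => f (v :: w)) w
  | _, _, f, w => f w

/-- The slide on all chunks. -/
def slideAll (op : α → α → α) (a₀ b₀ : List Bool) (ls : List Bool) (f : List Bool → α) :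
    List Bool → α :=
  nxt op a₀ b₀ ls a₀.length (cur op ls a₀ b₀ f)

/-! ### unfolding lemmas for `tab` -/

theorem tab_nxt_false (op : α → α → α) (a₀ b₀ ls : List Bool) (r : ℕ) (f : List Bool → α) :
    tab (ls.length + 1) (nxt op a₀ b₀ (false :: ls) r f) =
      tab ls.length (nxt op a₀ b₀ ls r (fun w => f (false :: w))) ++
      tab ls.length (nxt op a₀ b₀ ls r (fun w => f (true :: w))) := rfl

theorem tab_nxt_true (op : α → α → α) (a₀ b₀ ls : List Bool) {r : ℕ} (hr : r ≠ 1)
    (f : List Bool → α) :
    tab (ls.length + 1) (nxt op a₀ b₀ (true :: ls) r f) =
      tab ls.length (nxt op a₀ b₀ ls (r - 1) (fun w => f (false :: w))) ++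
      tab ls.length (nxt op a₀ b₀ ls (r - 1) (fun w => f (true :: w))) := by
  simp only [tab]
  congr 1 <;> · refine tab_congr fun w _ => ?_
                simp [nxt, hr]

theorem tab_nxt_true_one (op : α → α → α) (a₀ b₀ ls : List Bool) (f : List Bool → α) :
    tab (ls.length + 1) (nxt op a₀ b₀ (true :: ls) 1 f) =
      tab ls.length (slideAll op a₀ b₀ ls (fun w => f (false :: w))) ++
      tab ls.length (slideAll op a₀ b₀ ls (fun w => f (true :: w))) := by
  simp only [tab]
  congr 1 <;> · refine tab_congr fun w _ => ?_
                simp [nxt, slideAll]

theorem length_selL {m : ℕ} : ∀ (ls a : List Bool) (f : List Bool → α), a.length < m →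
    ok m ls a.length → a ≠ [] → (selL ls a f).length = 2 ^ (ls.length - a.length) ∧
      a.length ≤ ls.length
  | [], a, f, hm, h, _ => by
    simp only [ok] at h; omega
  | false :: ls, x :: a, f, hm, h, _ => by
    have h1 := length_selL ls (x :: a) (fun w => f (false :: w)) hm h (by simp)
    have h2 := length_selL ls (x :: a) (fun w => f (true :: w)) hm h (by simp)
    refine ⟨?_, by simp at h1 ⊢; omega⟩
    rw [selL, List.length_append, h1.1, h2.1]
    have : (false :: ls).length - (x :: a).length = (ls.length - (x :: a).length) + 1 := by
      have := h1.2; simp only [List.length_cons] at this ⊢; omega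
    rw [this, pow_succ]; ring
  | true :: ls, [x], f, hm, h, _ => by
    simp [selL]
  | true :: ls, x :: x' :: a, f, hm, h, _ => by
    have h0 : ok m ls (x' :: a).length := by
      simpa [ok] using h
    have h1 := length_selL ls (x' :: a) (fun w => f (x :: w)) (by simp at hm ⊢; omega) h0
      (by simp)
    refine ⟨?_, by simp at h1 ⊢; omega⟩
    rw [selL, h1.1]
    congr 1
    simp
  | _ :: _, [], f, hm, h, h' => absurd rfl h'

end Vale.Agent.P338.R2.H110
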