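import Vale.Agent.P338.R3.H313.EvActs
import Vale.Agent.P338.R3.H898.Act
import Vale.Agent.P338.R3.H527.Word3

/-! A sweep as a list of acts of the cell machine. -/

namespace Vale.Agent.P338.R2.H110

open Vale.Agent.P338.R3.H968 (Cell DS CPar cAdd cSub)
open Vale.Agent.P338.R3.H898 (Ex Ex1)
open Vale.Agent.P338.R3.H313 (mvA cpA trA adA actsEv cev insEvs swIns swLen)
open Vale.Agent.P338.R3.H527 (opS)

/-- The act of the cell machine which belongs to an act of a sweep (`s = true`: addition,
`s = false`: subtraction). -/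
def SA.act (s : Bool) : SA → ℕ × List Bool × List Bool
  | .mv d => mvA d
  | .cp d => cpA d
  | .tr => trA
  | .ad d => adA d s

/-- The data with a given state of a sweep. -/
def zds (D : DS) (z : ZS Cell) : DS := { D with X := ⟨z.l, z.r⟩, A := z.A, B := z.B }

theorem opS_true (x y : Cell) : opS true x y = cAdd x y := rfl

theorem opS_false (x y : Cell) : opS false x y = cSub x y := by
  funext j
  simp [opS, Vale.Agent.P338.R3.H527.sg, cSub, sub_eq_add_neg]

theorem SA.Step.ex {s : Bool} {a : SA} {z z' : ZS Cell} (h : a.Step (opS s) z z') (P : CPar)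
    (D : DS) : Ex1 P (a.act s) (zds D z) (zds D z') := by
  cases h with
  | mvR c l r A B => exact Ex1.mvR (zds D ⟨l, c :: r, A, B⟩) c l r rfl
  | mvL c l r A B => exact Ex1.mvL (zds D ⟨c :: l, r, A, B⟩) c l r rfl
  | cpR c l r A B => exact Ex1.pushR (zds D ⟨l, c :: r, A, B⟩) c l r rfl
  | cpL c l r A B => exact Ex1.pushL (zds D ⟨c :: l, r, A, B⟩) c l r rfl
  | tr c l r A B => exact Ex1.tr (zds D ⟨l, r, c :: A, B⟩) c A rfl
  | adR c e l r A B =>
    cases s
    · rw [opS_false]
      exact Ex1.subR (zds D ⟨l, c :: r, A, e :: B⟩) c e l r B rfl rfl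
    · rw [opS_true]
      exact Ex1.addR (zds D ⟨l, c :: r, A, e :: B⟩) c e l r B rfl rfl
  | adL c e l r A B =>
    cases s
    · rw [opS_false]
      exact Ex1.subL (zds D ⟨c :: l, r, A, e :: B⟩) c e l r B rfl rfl
    · rw [opS_true]
      exact Ex1.addL (zds D ⟨c :: l, r, A, e :: B⟩) c e l r B rfl rfl

theorem Steps.ex {s : Bool} {l : List SA} {z z' : ZS Cell} (h : Steps (opS s) l z z')
    (P : CPar) (D : DS) : Ex P (l.map (SA.act s)) (zds D z) (zds D z') := by
  induction h with
  | nil => exact .nil _
  | cons h1 _ ih => exact .cons (h1.ex P D) ih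

theorem ctl_reps_eq {β : Type} (l : List (ℕ × β)) : Vale.Agent.P338.R3.H313.Ctl.reps l = reps l :=
  rfl

theorem reps_map {β γ : Type*} (g : β → γ) (l : List (ℕ × β)) :
    reps (l.map fun x => (x.1, g x.2)) = (reps l).map g := by
  induction l with
  | nil => rfl
  | cons x l ih => simp [ih]

theorem insEvs_eq (d s : Bool) (l : List Ev) :
    insEvs d s l = (codes d l).map fun x => (x.1, x.2.act s) := by
  induction l with
  | nil => rfl
  | cons e l ih =>
    have h1 : insEvs d s (e :: l) = actsEv d s (cev e) ++ insEvs d s l := rfl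
    rw [h1, ih, codes_cons, List.map_append]
    cases e <;> rfl

/-- The acts of a list of events. -/
theorem Runs.ex {s : Bool} (d : Bool) {l : List Ev} {z z' : SS Cell} (h : Runs (opS s) l z z')
    (P : CPar) (D : DS) :
    Ex P (Vale.Agent.P338.R3.H313.Ctl.reps (insEvs d s l)) (zds D (z.zs d)) (zds D (z'.zs d)) := by
  rw [insEvs_eq, ctl_reps_eq, reps_map]
  exact (h.steps d).ex P D

/-- The word as it is used by the code of a sweep in direction `d`. -/
def wrd (d : Bool) (a : List Bool) : List Bool := bif d then a else cpl a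

/-- **One sweep in direction `d` as a list of acts of the cell machine.** -/
theorem sweepEx (P : CPar) (D : DS) {d : Bool} (s : Bool) {a b : List Bool} (h0 : fwD d a b)
    {ls : List Bool} (hok : ok a.length ls a.length) (f : List Bool → Cell) (l r : List Cell) :
    Ex P ((List.range (swLen ((d, s), wrd d a, wrd d b, ls))).flatMap fun u =>
        Vale.Agent.P338.R3.H313.Ctl.reps (swIns ((d, s), wrd d a, wrd d b, ls) u))
      (zds D (zin d ls.length f l r D.A D.B))
      (zds D (zin (!d) ls.length (slideD (opS s) d a b ls f) l r D.A D.B)) := by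
  rw [Vale.Agent.P338.R3.H313.sweep_acts]
  cases d with
  | true => exact (sweep (op := opS s) (show fw a b from h0) hok f l r D.A D.B).ex true P D
  | false =>
    have h1 := (sweep (op := opS s) (show fw (cpl a) (cpl b) from h0)
      (by simpa using hok) (fun w => f (cpl w)) r l D.A D.B).ex false P D
    simp only [SS.zs] at h1
    simp only [zin, slideD, tab_reverse, Bool.not_false]
    simpa [tab_reverse, wrd] using h1

/-- The number of these acts. -/
theorem length_sweepEx {d : Bool} (s : Bool) {a b : List Bool} (h0 : fwD d a b)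
    {ls : List Bool} (hok : ok a.length ls a.length) :
    a.length * 2 ^ a.length *
      ((List.range (swLen ((d, s), wrd d a, wrd d b, ls))).flatMap fun u =>
        Vale.Agent.P338.R3.H313.Ctl.reps (swIns ((d, s), wrd d a, wrd d b, ls) u)).length ≤
      2 * (2 ^ ls.length * (a.length * 2 ^ a.length + 3 * act ls)) := by
  rw [Vale.Agent.P338.R3.H313.sweep_acts, insEvs_eq, ctl_reps_eq, reps_map, List.length_map]
  have h2 := length_reps_codes d (go (wrd d a) (wrd d b) ls (.pre (wrd d a) (wrd d b)))
  have h1 : a.length * 2 ^ a.length * cost (go (wrd d a) (wrd d b) ls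
      (.pre (wrd d a) (wrd d b))) ≤ 2 ^ ls.length * (a.length * 2 ^ a.length + 3 * act ls) := by
    cases d with
    | true => exact cost_sweep (show fw a b from h0) hok
    | false =>
      have := cost_sweep (show fw (cpl a) (cpl b) from h0) (by simpa using hok)
      simpa [wrd] using this
  calc _ ≤ a.length * 2 ^ a.length * (2 * cost (go (wrd d a) (wrd d b) ls
        (.pre (wrd d a) (wrd d b)))) := Nat.mul_le_mul_left _ h2
    _ = 2 * (a.length * 2 ^ a.length * cost (go (wrd d a) (wrd d b) ls
        (.pre (wrd d a) (wrd d b)))) := by ring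
    _ ≤ _ := Nat.mul_le_mul_left _ h1

end Vale.Agent.P338.R2.H110
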